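import Vale.Agent.P359.Gap.Cert.Expand
import Mathlib.Algebra.BigOperators.Intervals

/-!
# P359 gap: the integer checks at one degree
-/

namespace Vale.Agent.P359.Gap.Cert

open Finset Nat

/-- `kvec` with fast binomial coefficients. -/
def kfast (L M q : ℕ) : ℤ :=
  ∑ r ∈ range (q + 1), ((M.descFactorial r / r ! : ℕ) : ℤ) * (-1) ^ r *
    (((L - M).descFactorial (q - r) / (q - r)! : ℕ) : ℤ) * 2 ^ (q - r)

/-- The constraint levels present at degree `L`. -/
def constraintLevels (L : ℕ) : List ℕ := [0, 1, 3].filter fun M => decide (M ≤ L)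

/-- The shifted table of degree `L`: cost, minus the linear form, plus the constraint squares. -/
def shifted (L : ℕ) (top f mu : ℤ) (R A : List (List ℤ)) : Bool :=
  (List.range ((L + 1) / 2)).all fun i => (List.range ((L + 1) / 2)).all fun j =>
    decide (entry A i j = (if i = 0 ∧ j = 0 then top else 0) - f * entry R i j +
      mu * ((constraintLevels L).map fun M => kfast L M (2 * i + 1) * kfast L M (2 * j + 1)).sum)

/-- The sum of absolute values. -/
def absSum : List ℤ → ℕ
  | [] => 0
  | a :: l => a.natAbs + absSum l

/-- The size of a weighted outer product, as a natural number. -/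
def sizeN (p : ℤ × List ℤ × List ℤ) : ℕ := p.1.natAbs * (absSum p.2.1 * absSum p.2.2)

/-- A weighted outer product, packed in two given bases. -/
def packTwo (BX BY : ℤ) (p : ℤ × List ℤ × List ℤ) : ℤ :=
  p.1 * (pack BX p.2.1 * pack BY p.2.2)

/-- The checks on a part of the pairs at one degree. -/
def checkPart (S0 L : ℕ) (T : Tab2) (BX BY : ℤ) (ls : List (List (ℤ × X2 × X2))) (vp : ℤ)
    (vs : ℕ) : Bool :=
  (ls.all fun c => (terms2 S0 L T c).all fun p =>
    decide (p.2.1.length ≤ (L + 1) / 2) && decide (p.2.2.length ≤ (L + 1) / 2)) &&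
  decide ((ls.map fun c => ((terms2 S0 L T c).map (packTwo BX BY)).sum).sum = vp) &&
  decide ((ls.map fun c => ((terms2 S0 L T c).map sizeN).sum).sum ≤ vs)

/-- The checks at one degree on the summed parts. -/
def checkRest (L : ℕ) (BX BY top f mu : ℤ) (vp : ℤ) (vs : ℕ) (R A : List (List ℤ)) : Bool :=
  decide (BX = BY ^ ((L + 1) / 2)) &&
  decide (R.length = (L + 1) / 2) && (R.all fun r => decide (r.length = (L + 1) / 2)) &&
  decide (vp = packMat BY ((L + 1) / 2) R) && decide (2 * ((vs : ℤ) + sizeMat R) < BY) &&
  psdCheck ((L + 1) / 2) A &&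
  ((List.range ((L + 1) / 2)).all fun i => (List.range ((L + 1) / 2)).all fun j =>
    decide (entry A i j = entry A j i)) &&
  shifted L top f mu R A

/-- The recursion check on one layer of a two particle table. -/
def checkLayer (na L : ℕ) (below T : Tab2) (i : ℕ) : Bool :=
  (List.range na).all fun a => (List.range na).all fun b =>
    decide (row2 T i a b = if i + a + b < L then [] else rule2 L below T i a b)

/-- Seven checked layers give the table check. -/
lemma check2_of_layers {na L : ℕ} {below T : Tab2} (h0 : checkLayer na L below T 0 = true)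
    (h1 : checkLayer na L below T 1 = true) (h2 : checkLayer na L below T 2 = true)
    (h3 : checkLayer na L below T 3 = true) (h4 : checkLayer na L below T 4 = true)
    (h5 : checkLayer na L below T 5 = true) (h6 : checkLayer na L below T 6 = true) :
    check2 7 na L below T = true := by
  refine List.all_eq_true.2 fun i hi => ?_
  rw [List.mem_range] at hi
  match i, hi with
  | 0, _ => exact h0
  | 1, _ => exact h1
  | 2, _ => exact h2
  | 3, _ => exact h3
  | 4, _ => exact h4
  | 5, _ => exact h5
  | 6, _ => exact h6

end Vale.Agent.P359.Gap.Cert
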