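import Vale.Agent.P359.Gap.Cert.Forms
import Vale.Agent.P359.Gap.Targets
import Mathlib.Algebra.Order.Field.Basic
import Mathlib.Tactic.Linarith
import Mathlib.Tactic.NormNum
import Mathlib.Tactic.FieldSimp

/-!
# P359 gap: from the checked forms to the planar bound
-/

namespace Vale.Agent.P359.Gap.Cert

open Finset Nat

/-- The check of one particle level `M`. -/
def oneCheck (T : Tab1) (l : List (ℤ × X1 × X1)) (M : ℕ) : Bool :=
  decide (lin1 32 T l M * ((2 ^ (M + 1) * 6 ^ M * M ! : ℕ) : ℤ) ≤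
    9 ^ 32 * 2 ^ 240 * 3 * (-1) ^ M * (3 * (M : ℤ) - 1))

/-- The pieces of the certificate give the planar bound. -/
theorem planar_of_forms (he1 : Expand1Target) (he2 : Expand2Target)
    (hcoord : ∀ G1 G2, IsPlanar G1 G2 → CoordTarget G1 G2)
    (ni na ni' na' : ℕ) (T1 : Tab1) (hT1 : check1 ni na T1 = true) (T : ℕ → Tab2)
    (hT0 : check2 ni' na' 0 [] (T 0) = true)
    (hT : ∀ L, L < 21 → check2 ni' na' (L + 1) (T L) (T (L + 1)) = true)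
    (l1 : List (ℤ × X1 × X1)) (l2 : List (ℤ × X2 × X2)) (K0 : ℤ)
    (hl1 : ∀ p ∈ l1, (p.2.1.1 < ni ∧ p.2.1.2 < na) ∧ (p.2.2.1 < ni ∧ p.2.2.2 < na) ∧
      p.2.1.1 + p.2.1.2 ≤ 32)
    (hl2 : ∀ p ∈ l2, (p.2.1.1 < ni' ∧ p.2.1.2.1 < na' ∧ p.2.1.2.2 < na') ∧
      (p.2.2.1 < ni' ∧ p.2.2.2.1 < na' ∧ p.2.2.2.2 < na') ∧
      p.2.1.1 + p.2.1.2.1 + p.2.1.2.2 ≤ 21)
    (hforms : ∀ G1 G2, IsPlanar G1 G2 →
      0 ≤ (K0 : ℝ) + val1 G1 l1 + (2 : ℝ) ^ 112 * val2 G2 l2)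
    (hK : 100 * K0 ≤ 97 * 2 ^ 240)
    (hone : ∀ M, M < 33 → M ≠ 0 → M ≠ 1 → M ≠ 3 → oneCheck T1 l1 M = true)
    (hdeg : ∀ G1 G2, CoordTarget G1 G2 → ∀ L, L < 21 →
      (((2 * 4 ^ L * L ! : ℕ) : ℤ) : ℝ) * ∑ i ∈ range ((L + 1 + 1) / 2), ∑ j ∈ range ((L + 1 + 1) / 2),
        (lin2 21 (L + 1) (T (L + 1)) l2 i j : ℝ) * rho2 G2 (L + 1) (2 * i + 1) (2 * j + 1) ≤
      (((2 ^ 128 * 16 ^ 21 : ℕ) : ℤ) : ℝ) * rho2 G2 (L + 1) 1 1) :
    CertTarget := by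
  intro G1 G2 h
  have hc := hcoord G1 G2 h
  have h1 := he1 G1 G2 h ni na 32 T1 hT1 l1 hl1
  have h2 := he2 G1 G2 h ni' na' 21 T hT0 hT l2 hl2
  have hF := hforms G1 G2 h
  set E1 := ∑ M ∈ range 33, (-1 / 2 : ℝ) ^ M * (3 * (M : ℝ) - 1) * (3 / 2) *
    (rho1 G1 M / ((6 : ℝ) ^ M * (M ! : ℝ))) with hE1
  set E2 := ∑ L ∈ range 30, rho2 G2 (L + 1) 1 1 / (2 * (4 : ℝ) ^ L * (L ! : ℝ)) with hE2
  have hE : planarEnergy G1 G2 = E1 + E2 := by
    rw [planarEnergy, hE1, hE2]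
    exact congrArg₂ (· + ·) rfl (Finset.sum_congr rfl fun L _ => by rw [hc.pair2 L])
  have hv1 : val1 G1 l1 ≤ 2 ^ 240 * E1 := by
    have : (9 : ℝ) ^ 32 * val1 G1 l1 ≤ 9 ^ 32 * (2 ^ 240 * E1) := by
      rw [h1, hE1, Finset.mul_sum, Finset.mul_sum]
      refine Finset.sum_le_sum fun M hM => ?_
      rcases em (M = 0 ∨ M = 1 ∨ M = 3) with h0 | h0
      · rw [hc.zero1 M (by simpa using h0)]; simp
      · push Not at h0
        have hM' : M < 33 := Finset.mem_range.1 hM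
        have hk := hone M hM' h0.1 h0.2.1 h0.2.2
        simp only [oneCheck, decide_eq_true_eq] at hk
        have hk' := (Int.cast_le (R := ℝ)).2 hk
        push_cast at hk'
        have hd : (0 : ℝ) < 2 ^ (M + 1) * 6 ^ M * (M ! : ℝ) := by positivity
        rw [← le_div_iff₀ hd] at hk'
        refine (mul_le_mul_of_nonneg_right hk' (hc.nonneg1 M)).trans (le_of_eq ?_)
        rw [div_pow]
        field_simp
        ring
    exact le_of_mul_le_mul_left this (by norm_num)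
  have hv2 : (2 : ℝ) ^ 112 * val2 G2 l2 ≤ 2 ^ 240 * E2 := by
    have hnn : ∀ L, 0 ≤ rho2 G2 (L + 1) 1 1 := fun L => by
      rw [← hc.pair2]; exact h.psd2 _
    have hsub : ∑ L ∈ range 21, rho2 G2 (L + 1) 1 1 / (2 * (4 : ℝ) ^ L * (L ! : ℝ)) ≤ E2 :=
      Finset.sum_le_sum_of_subset_of_nonneg (by intro x; simp; omega)
        fun L _ _ => div_nonneg (hnn L) (by positivity)
    have : (16 : ℝ) ^ 21 * val2 G2 l2 ≤ 2 ^ 128 * 16 ^ 21 *
        ∑ L ∈ range 21, rho2 G2 (L + 1) 1 1 / (2 * (4 : ℝ) ^ L * (L ! : ℝ)) := by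
      rw [h2, Finset.sum_range_succ', Finset.mul_sum]
      simp only [show ((0 + 1) / 2 : ℕ) = 0 from rfl, Finset.range_zero, Finset.sum_empty, add_zero]
      refine Finset.sum_le_sum fun L hL => ?_
      have hd : (0 : ℝ) < 2 * (4 : ℝ) ^ L * (L ! : ℝ) := by positivity
      have hk := hdeg G1 G2 hc L (Finset.mem_range.1 hL)
      push_cast at hk
      rw [← mul_div_assoc, le_div_iff₀ hd, mul_comm]
      norm_num at hk ⊢
      exact hk
    have h3 : val2 G2 l2 ≤ 2 ^ 128 * E2 := by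
      have := this.trans (mul_le_mul_of_nonneg_left hsub (by norm_num))
      rw [mul_comm ((2 : ℝ) ^ 128) (16 ^ 21), mul_assoc] at this
      exact le_of_mul_le_mul_left this (by norm_num)
    calc (2 : ℝ) ^ 112 * val2 G2 l2 ≤ 2 ^ 112 * (2 ^ 128 * E2) :=
          mul_le_mul_of_nonneg_left h3 (by norm_num)
      _ = 2 ^ 240 * E2 := by ring
  have hK' : (100 : ℝ) * K0 ≤ 97 * 2 ^ 240 := by exact_mod_cast hK
  rw [hE]
  linarith

end Vale.Agent.P359.Gap.Cert
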