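import Mathlib.Algebra.BigOperators.Fin
import Mathlib.Algebra.Order.BigOperators.Group.Finset
import Mathlib.Data.Real.Basic

/-!
# P359 gap: integer checks for the certificate, to be evaluated by the kernel
-/

namespace Vale.Agent.P359.Gap.Cert

open Finset

/-- Entry of an integer table, zero outside. -/
def entry (A : List (List ℤ)) (i j : ℕ) : ℤ := (A.getD i []).getD j 0

/-- The dot product of two lists. -/
noncomputable def dotInt (l : List ℤ) (m : List ℤ) : ℤ :=
  (List.zipWith (fun a b => a * b) l m).sum

/-- One elimination step without division. -/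
def schur (a : ℤ) (b : List ℤ) (A : List (List ℤ)) : List (List ℤ) :=
  List.zipWith (fun bi row => List.zipWith (fun bj x => a * x - bi * bj) b row) b A

/-- Elimination check that a symmetric integer table is positive semidefinite. -/
def psdCheck : ℕ → List (List ℤ) → Bool
  | 0, A => A.isEmpty
  | n + 1, A =>
    match A with
    | (a :: b) :: rest =>
      let col := rest.map fun r => r.headD 0
      let sub := rest.map fun r => r.tail
      decide (b.length = n ∧ rest.length = n ∧ (∀ r ∈ rest, r.length = n + 1) ∧ col = b) &&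
        (if 0 < a then psdCheck n (schur a b sub)
          else decide (a = 0 ∧ ∀ x ∈ b, x = 0) && psdCheck n sub)
    | _ => false

/-- Horner packing of a list in base `B`. -/
def pack (B : ℤ) : List ℤ → ℤ
  | [] => 0
  | a :: l => a + B * pack B l

/-- A weighted outer product, packed. -/
def packTerm (B : ℤ) (k : ℕ) (p : ℤ × List ℤ × List ℤ) : ℤ :=
  p.1 * (pack (B ^ k) p.2.1 * pack B p.2.2)

/-- The size of a weighted outer product. -/
def sizeTerm (p : ℤ × List ℤ × List ℤ) : ℤ :=
  |p.1| * ((p.2.1.map fun x => |x|).sum * (p.2.2.map fun x => |x|).sum)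

/-- The packed form of a table. -/
def packMat (B : ℤ) (k : ℕ) (R : List (List ℤ)) : ℤ := pack (B ^ k) (R.map (pack B))

/-- The size of a table. -/
def sizeMat (R : List (List ℤ)) : ℤ := ((R.map fun r => (r.map fun x => |x|).sum)).sum

/-- Soundness of the elimination check. -/
def PsdCheckTarget : Prop :=
  ∀ n A, psdCheck n A = true → ∀ w : ℕ → ℝ,
    0 ≤ ∑ i ∈ range n, ∑ j ∈ range n, w i * w j * (entry A i j : ℝ)

/-- Soundness of packing: one integer identity and one bound give every entry. -/
def PackTarget : Prop :=
  ∀ (B : ℤ) (k : ℕ) (ps : List (ℤ × List ℤ × List ℤ)) (R : List (List ℤ)),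
    (∀ p ∈ ps, p.2.1.length ≤ k ∧ p.2.2.length ≤ k) → R.length = k → (∀ r ∈ R, r.length = k) →
    (ps.map (packTerm B k)).sum = packMat B k R →
    2 * ((ps.map sizeTerm).sum + sizeMat R) < B →
    ∀ i < k, ∀ j < k,
      (ps.map fun p => p.1 * (p.2.1.getD i 0 * p.2.2.getD j 0)).sum = entry R i j

end Vale.Agent.P359.Gap.Cert
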