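import Vale.Agent.P359.Gap.Cert.Check
import Mathlib.Analysis.InnerProductSpace.Positive
import Mathlib.Tactic.Linarith
import Mathlib.Tactic.Ring
import Mathlib.Tactic.Positivity

/-!
# P359 gap: the bound at one degree
-/

namespace Vale.Agent.P359.Gap.Cert

open Finset Nat Matrix

lemma kfast_eq (L M q : ℕ) : kfast L M q = kvec L M q :=
  Finset.sum_congr rfl fun r _ => by simp only [Nat.choose_eq_descFactorial_div_factorial]

lemma sum_psd_mul_psd {k : ℕ} (a b : ℕ → ℕ → ℝ) (hsym : ∀ i < k, ∀ j < k, a i j = a j i)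
    (ha : ∀ w : ℕ → ℝ, 0 ≤ ∑ i ∈ range k, ∑ j ∈ range k, w i * w j * a i j)
    (hb : ∀ w : ℕ → ℝ, 0 ≤ ∑ i ∈ range k, ∑ j ∈ range k, w i * w j * b i j) :
    0 ≤ ∑ i ∈ range k, ∑ j ∈ range k, a i j * b i j := by
  let A : Matrix (Fin k) (Fin k) ℝ := fun i j => a i j
  have hA : A.PosSemidef := by
    refine PosSemidef.of_dotProduct_mulVec_nonneg ?_ fun x => ?_
    · ext i j; exact (hsym j j.2 i i.2).trans rfl
    · have := ha fun i => if h : i < k then x ⟨i, h⟩ else 0
      simp only [← Fin.sum_univ_eq_sum_range (n := k)] at this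
      simpa [dotProduct, mulVec, A, Finset.mul_sum, mul_comm, mul_left_comm, mul_assoc] using this
  obtain ⟨m, v, hv⟩ := posSemidef_iff_eq_sum_vecMulVec.1 hA
  have e : ∀ i j : Fin k, a i j = ∑ s : Fin m, v s i * v s j := fun i j => by
    have := congrFun (congrFun hv i) j
    simpa [A, Matrix.sum_apply, vecMulVec_apply] using this
  simp only [← Fin.sum_univ_eq_sum_range (n := k), e, Finset.sum_mul]
  rw [Finset.sum_congr rfl fun i _ => Finset.sum_comm, Finset.sum_comm]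
  refine Finset.sum_nonneg fun s _ => ?_
  have := hb fun i => if h : i < k then v s ⟨i, h⟩ else 0
  simpa [← Fin.sum_univ_eq_sum_range (n := k)] using this

lemma sum_odd_range (L : ℕ) (g : ℕ → ℝ) (hg : ∀ q ≤ L, Even q → g q = 0) :
    ∑ q ∈ range (L + 1), g q = ∑ i ∈ range ((L + 1) / 2), g (2 * i + 1) := by
  induction L with
  | zero => simp [hg 0 le_rfl ⟨0, rfl⟩]
  | succ L ih =>
    rw [Finset.sum_range_succ, ih fun q hq => hg q (by omega)]
    rcases Nat.even_or_odd (L + 1) with ⟨m, hm⟩ | ⟨m, hm⟩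
    · rw [hg (L + 1) le_rfl ⟨m, hm⟩, show (L + 1 + 1) / 2 = (L + 1) / 2 by omega, add_zero]
    · rw [show (L + 1 + 1) / 2 = (L + 1) / 2 + 1 by omega, Finset.sum_range_succ,
        show 2 * ((L + 1) / 2) + 1 = L + 1 by omega]

/-- A checked degree: the linear form is at most the cost. -/
theorem degree_bound (hs : PsdCheckTarget) (hp : PackTarget) {G1 : X1 → X1 → ℝ}
    {G2 : X2 → X2 → ℝ} (h : CoordTarget G1 G2) (S0 L : ℕ) (T : Tab2) (ls : List (List (ℤ × X2 × X2)))
    (B top f mu : ℤ) (R A : List (List ℤ)) (hL : 0 < L)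
    (hlen : ∀ c ∈ ls, ∀ p ∈ terms2 S0 L T c,
      p.2.1.length ≤ (L + 1) / 2 ∧ p.2.2.length ≤ (L + 1) / 2)
    (hR : R.length = (L + 1) / 2 ∧ ∀ r ∈ R, r.length = (L + 1) / 2)
    (hpack : (ls.map fun c => ((terms2 S0 L T c).map (packTerm B ((L + 1) / 2))).sum).sum =
      packMat B ((L + 1) / 2) R)
    (hB : 2 * ((ls.map fun c => ((terms2 S0 L T c).map sizeTerm).sum).sum + sizeMat R) < B)
    (hA : psdCheck ((L + 1) / 2) A = true)
    (hsym : ∀ i < (L + 1) / 2, ∀ j < (L + 1) / 2, entry A i j = entry A j i)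
    (hsh : shifted L top f mu R A = true) :
    (f : ℝ) * ∑ i ∈ range ((L + 1) / 2), ∑ j ∈ range ((L + 1) / 2),
      (lin2 S0 L T ls.flatten i j : ℝ) * rho2 G2 L (2 * i + 1) (2 * j + 1) ≤ (top : ℝ) * rho2 G2 L 1 1 := by
  set k := (L + 1) / 2 with hk
  set ρ : ℕ → ℕ → ℝ := fun i j => rho2 G2 L (2 * i + 1) (2 * j + 1) with hρ
  have hflat : ∀ g : ℤ × List ℤ × List ℤ → ℤ, ((terms2 S0 L T ls.flatten).map g).sum =
      (ls.map fun c => ((terms2 S0 L T c).map g).sum).sum := fun g => by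
    simp only [terms2, List.filterMap_flatten, List.map_flatten, List.sum_flatten, List.map_map,
      Function.comp_def]
  have hlin : ∀ i < k, ∀ j < k, lin2 S0 L T ls.flatten i j = entry R i j :=
    hp B k _ R (fun p hp' => by
      simp only [terms2, List.filterMap_flatten, List.mem_flatten, List.mem_map] at hp'
      obtain ⟨_, ⟨c, hc, rfl⟩, hpc⟩ := hp'
      exact hlen c hc p hpc) hR.1 hR.2 ((hflat _).trans hpack) (by rw [hflat]; exact hB)
  have hpsd : ∀ w : ℕ → ℝ, 0 ≤ ∑ i ∈ range k, ∑ j ∈ range k, w i * w j * ρ i j := fun w => by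
    have := h.psd2 L fun q => if Even q then 0 else w (q / 2)
    rw [sum_odd_range L _ fun q _ hq => by simp [hq]] at this
    refine this.trans (le_of_eq (Finset.sum_congr rfl fun i _ => ?_))
    rw [sum_odd_range L _ fun q _ hq => by simp [hq]]
    simp [hρ, hk, Nat.mul_add_div, parity_simps]
  have hk0 : ∀ M ∈ constraintLevels L, ∀ j < k,
      ∑ i ∈ range k, (kvec L M (2 * i + 1) : ℝ) * ρ i j = 0 := fun M hM j hj => by
    simp only [constraintLevels, List.mem_filter, decide_eq_true_eq] at hM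
    have := h.zero2 M (by simpa using hM.1) L hM.2 (2 * j + 1) (by omega)
    rwa [sum_odd_range L _ fun q hq he => by rw [h.even2 L q _ hq (by omega) he, mul_zero]] at this
  have hsum := sum_psd_mul_psd (k := k) (fun i j => (entry A i j : ℝ)) ρ
    (fun i hi j hj => by exact_mod_cast congrArg (Int.cast : ℤ → ℝ) (hsym i hi j hj))
    (hs k A hA) hpsd
  simp only [shifted, List.all_eq_true, List.mem_range, decide_eq_true_eq, ← hk] at hsh
  have e : ∀ i ∈ range k, ∀ j ∈ range k, (entry A i j : ℝ) * ρ i j =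
      (if i = 0 ∧ j = 0 then (top : ℝ) * ρ i j else 0) - (f : ℝ) * ((lin2 S0 L T ls.flatten i j : ℝ) * ρ i j) +
      (mu : ℝ) * ((constraintLevels L).map fun M =>
        (kvec L M (2 * i + 1) : ℝ) * (kvec L M (2 * j + 1) : ℝ) * ρ i j).sum := fun i hi j hj => by
    rw [Finset.mem_range] at hi hj
    rw [hsh i hi j hj, hlin i hi j hj]
    simp only [kfast_eq, Int.cast_add, Int.cast_sub, Int.cast_mul, Int.cast_list_sum, List.map_map,
      Function.comp_def, List.sum_map_mul_right, apply_ite (Int.cast : ℤ → ℝ), Int.cast_zero]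
    split <;> ring
  rw [Finset.sum_congr rfl fun i hi => Finset.sum_congr rfl (e i hi)] at hsum
  simp only [Finset.sum_add_distrib, Finset.sum_sub_distrib, ← Finset.mul_sum] at hsum
  have hz : ∑ i ∈ range k, ∑ j ∈ range k, ((constraintLevels L).map fun M =>
      (kvec L M (2 * i + 1) : ℝ) * (kvec L M (2 * j + 1) : ℝ) * ρ i j).sum = 0 := by
    rw [Finset.sum_comm]
    refine Finset.sum_eq_zero fun j hj => ?_
    have hn : (constraintLevels L).Nodup := ((by decide : ([0, 1, 3] : List ℕ).Nodup)).filter _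
    simp only [← List.sum_toFinset _ hn]
    rw [Finset.sum_comm]
    refine Finset.sum_eq_zero fun M hM => ?_
    have := hk0 M (List.mem_toFinset.1 hM) j (Finset.mem_range.1 hj)
    calc _ = (kvec L M (2 * j + 1) : ℝ) * ∑ i ∈ range k, (kvec L M (2 * i + 1) : ℝ) * ρ i j := by
          rw [Finset.mul_sum]; exact Finset.sum_congr rfl fun i _ => by ring
      _ = 0 := by rw [this, mul_zero]
  have h11 : ∑ i ∈ range k, ∑ j ∈ range k, (if i = 0 ∧ j = 0 then (top : ℝ) * ρ i j else 0) =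
      (top : ℝ) * rho2 G2 L 1 1 := by
    have h1 : 0 < k := by omega
    rw [Finset.sum_eq_single 0 (fun i _ hi => by simp [hi]) (fun h => absurd (Finset.mem_range.2 h1) h),
      Finset.sum_eq_single 0 (fun i _ hi => by simp [hi]) (fun h => absurd (Finset.mem_range.2 h1) h)]
    simp [hρ]
  rw [h11, hz] at hsum
  linarith

lemma absSum_eq : ∀ l : List ℤ, (absSum l : ℤ) = (l.map fun x => |x|).sum
  | [] => rfl
  | a :: l => by
    simp only [absSum, List.map_cons, List.sum_cons, Nat.cast_add, absSum_eq l, Int.natCast_natAbs]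

lemma sizeN_eq (p : ℤ × List ℤ × List ℤ) : (sizeN p : ℤ) = sizeTerm p := by
  simp only [sizeN, sizeTerm, Nat.cast_mul, absSum_eq, Int.natCast_natAbs]

/-- What the part checks give. -/
def PartOK (S0 L : ℕ) (T : Tab2) (BX BY : ℤ) (ls : List (List (ℤ × X2 × X2))) (vp : ℤ)
    (vs : ℕ) : Prop :=
  (∀ c ∈ ls, ∀ p ∈ terms2 S0 L T c,
    p.2.1.length ≤ (L + 1) / 2 ∧ p.2.2.length ≤ (L + 1) / 2) ∧
  (ls.map fun c => ((terms2 S0 L T c).map (packTwo BX BY)).sum).sum = vp ∧
  (ls.map fun c => ((terms2 S0 L T c).map sizeN).sum).sum ≤ vs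

lemma partOK_of_check {S0 L : ℕ} {T : Tab2} {BX BY : ℤ} {ls : List (List (ℤ × X2 × X2))} {vp : ℤ}
    {vs : ℕ} (h : checkPart S0 L T BX BY ls vp vs = true) : PartOK S0 L T BX BY ls vp vs := by
  simp only [checkPart, Bool.and_eq_true, List.all_eq_true, decide_eq_true_eq] at h
  exact ⟨h.1.1, h.1.2, h.2⟩

lemma PartOK.glue {S0 L : ℕ} {T : Tab2} {BX BY : ℤ} {ls : List (List (ℤ × X2 × X2))} {n : ℕ}
    {vp vp' : ℤ} {vs vs' : ℕ} (h : PartOK S0 L T BX BY (ls.take n) vp vs)
    (h' : PartOK S0 L T BX BY (ls.drop n) vp' vs') :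
    PartOK S0 L T BX BY ls (vp + vp') (vs + vs') := by
  obtain ⟨h1, h2, h3⟩ := h
  obtain ⟨h1', h2', h3'⟩ := h'
  rw [← List.take_append_drop n ls]
  refine ⟨fun c hc => ?_, ?_, ?_⟩
  · rcases List.mem_append.1 hc with hc | hc
    exacts [h1 c hc, h1' c hc]
  · rw [List.map_append, List.sum_append, h2, h2']
  · rw [List.map_append, List.sum_append]
    exact Nat.add_le_add h3 h3'

/-- The bound at one degree from its checks. -/
theorem degree_of_check (hs : PsdCheckTarget) (hp : PackTarget) {G1 : X1 → X1 → ℝ}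
    {G2 : X2 → X2 → ℝ} (h : CoordTarget G1 G2) {S0 L : ℕ} {T : Tab2}
    {ls : List (List (ℤ × X2 × X2))} {BX BY top f mu vp : ℤ} {vs : ℕ} {R A : List (List ℤ)}
    (hL : 0 < L) (hpart : PartOK S0 L T BX BY ls vp vs)
    (hc : checkRest L BX BY top f mu vp vs R A = true) :
    (f : ℝ) * ∑ i ∈ range ((L + 1) / 2), ∑ j ∈ range ((L + 1) / 2),
      (lin2 S0 L T ls.flatten i j : ℝ) * rho2 G2 L (2 * i + 1) (2 * j + 1) ≤
        (top : ℝ) * rho2 G2 L 1 1 := by
  simp only [checkRest, Bool.and_eq_true, List.all_eq_true, decide_eq_true_eq, List.mem_range]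
    at hc
  obtain ⟨⟨⟨⟨⟨⟨⟨h0, h2⟩, h3⟩, h4⟩, h5⟩, h6⟩, h7⟩, h8⟩ := hc
  obtain ⟨hlen, hvp, hvs⟩ := hpart
  subst h0
  refine degree_bound hs hp h S0 L T ls BY top f mu R A hL hlen ⟨h2, h3⟩ (hvp.trans h4) ?_ h6 h7 h8
  have e : (ls.map fun c => ((terms2 S0 L T c).map sizeTerm).sum).sum =
      (((ls.map fun c => ((terms2 S0 L T c).map sizeN).sum).sum : ℕ) : ℤ) := by
    simp only [Nat.cast_list_sum, List.map_map, Function.comp_def, sizeN_eq]
  rw [e]
  omega

end Vale.Agent.P359.Gap.Cert
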