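import Vale.Agent.P359.Gap.Coord
import Vale.Agent.P359.Gap.Cert.Core

/-!
# P359 gap: linear forms in the planar limit, expanded in translation adapted coordinates
-/

namespace Vale.Agent.P359.Gap.Cert

open Finset Nat

/-- A table by centre and particle level. -/
abbrev Tab1 := List (List (List ℤ))

/-- A table by centre and two particle levels. -/
abbrev Tab2 := List (List (List (List ℤ)))

/-- A row of a one particle table. -/
def row1 (T : Tab1) (i a : ℕ) : List ℤ := (T.getD i []).getD a []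

/-- A row of a two particle table. -/
def row2 (T : Tab2) (i a b : ℕ) : List ℤ := ((T.getD i []).getD a []).getD b []

/-- Multiplication of a row by `c T + d z`. -/
def mul1 (c d : ℤ) (r : List ℤ) : List ℤ :=
  (List.range (r.length + 1)).map fun t =>
    c * (if t = 0 then 0 else r.getD (t - 1) 0) + d * r.getD t 0

/-- The one particle row determined by its predecessors in a table. -/
def rule1 (T : Tab1) : ℕ → ℕ → List ℤ
  | i + 1, a => mul1 2 1 (row1 T i a)
  | 0, a + 1 => mul1 1 (-1) (row1 T 0 a)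
  | 0, 0 => [1]

/-- A one particle table satisfies its recursion on a box. -/
def check1 (ni na : ℕ) (T : Tab1) : Bool :=
  (List.range ni).all fun i => (List.range na).all fun a => decide (row1 T i a = rule1 T i a)

/-- The row at degree `L`, from the row of a predecessor at degree `L` and at degree `L - 1`. -/
def mul2 (L : ℕ) (c d e : ℤ) (same below : List ℤ) : List ℤ :=
  (List.range (L + 1)).map fun q =>
    c * same.getD q 0 + d * below.getD q 0 + e * (if q = 0 then 0 else below.getD (q - 1) 0)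

/-- The two particle row at degree `L` determined by its predecessors. -/
def rule2 (L : ℕ) (below T : Tab2) : ℕ → ℕ → ℕ → List ℤ
  | i + 1, a, b => mul2 L 2 2 0 (row2 T i a b) (row2 below i a b)
  | 0, a + 1, b => mul2 L 1 (-1) 2 (row2 T 0 a b) (row2 below 0 a b)
  | 0, 0, b + 1 => mul2 L 1 (-1) (-2) (row2 T 0 0 b) (row2 below 0 0 b)
  | 0, 0, 0 => [1]

/-- A two particle table of degree `L` satisfies its recursion on a box. -/
def check2 (ni na L : ℕ) (below T : Tab2) : Bool :=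
  (List.range ni).all fun i => (List.range na).all fun a => (List.range na).all fun b =>
    decide (row2 T i a b = if i + a + b < L then [] else rule2 L below T i a b)

/-- The entries with odd index. -/
def odds : List ℤ → List ℤ
  | _ :: b :: l => b :: odds l
  | _ => []

/-- A weighted sum of one particle values. -/
noncomputable def val1 (G1 : X1 → X1 → ℝ) (l : List (ℤ × X1 × X1)) : ℝ :=
  (l.map fun p => (p.1 : ℝ) * G1 p.2.1 p.2.2).sum

/-- A weighted sum of two particle values. -/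
noncomputable def val2 (G2 : X2 → X2 → ℝ) (l : List (ℤ × X2 × X2)) : ℝ :=
  (l.map fun p => (p.1 : ℝ) * G2 p.2.1 p.2.2).sum

/-- The coefficient of `rho1 M` in a weighted sum, times `9 ^ S0`. -/
def lin1 (S0 : ℕ) (T : Tab1) (l : List (ℤ × X1 × X1)) (M : ℕ) : ℤ :=
  (l.map fun p =>
    let S := p.2.1.1 + p.2.1.2
    if S = p.2.2.1 + p.2.2.2 ∧ M ≤ S then
      p.1 * (((9 ^ (S0 - S) * 3 ^ (S - M) * (S - M)! : ℕ) : ℤ)) *
        ((row1 T p.2.1.1 p.2.1.2).getD (S - M) 0 * (row1 T p.2.2.1 p.2.2.2).getD (S - M) 0)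
    else 0).sum

/-- The weighted rows at degree `L`, times `16 ^ S0`. -/
def terms2 (S0 L : ℕ) (T : Tab2) (l : List (ℤ × X2 × X2)) : List (ℤ × List ℤ × List ℤ) :=
  l.filterMap fun p =>
    let S := p.2.1.1 + p.2.1.2.1 + p.2.1.2.2
    if S = p.2.2.1 + p.2.2.2.1 + p.2.2.2.2 ∧ L ≤ S then
      some (p.1 * (((16 ^ (S0 - S) * 4 ^ (S - L) * (S - L)! : ℕ) : ℤ)),
        odds (row2 T p.2.1.1 p.2.1.2.1 p.2.1.2.2), odds (row2 T p.2.2.1 p.2.2.2.1 p.2.2.2.2))
    else none

/-- The coefficient of `rho2 L (2 i + 1) (2 j + 1)`. -/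
def lin2 (S0 L : ℕ) (T : Tab2) (l : List (ℤ × X2 × X2)) (i j : ℕ) : ℤ :=
  ((terms2 S0 L T l).map fun p => p.1 * (p.2.1.getD i 0 * p.2.2.getD j 0)).sum

/-- One particle expansion. -/
def Expand1Target : Prop :=
  ∀ G1 G2, IsPlanar G1 G2 → ∀ ni na S0 T, check1 ni na T = true →
    ∀ l : List (ℤ × X1 × X1),
      (∀ p ∈ l, (p.2.1.1 < ni ∧ p.2.1.2 < na) ∧ (p.2.2.1 < ni ∧ p.2.2.2 < na) ∧
        p.2.1.1 + p.2.1.2 ≤ S0) →
      (9 : ℝ) ^ S0 * val1 G1 l = ∑ M ∈ range (S0 + 1), (lin1 S0 T l M : ℝ) * rho1 G1 M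

/-- Two particle expansion, with one table per degree. -/
def Expand2Target : Prop :=
  ∀ G1 G2, IsPlanar G1 G2 → ∀ ni na S0, ∀ T : ℕ → Tab2, check2 ni na 0 [] (T 0) = true →
    (∀ L, L < S0 → check2 ni na (L + 1) (T L) (T (L + 1)) = true) →
    ∀ l : List (ℤ × X2 × X2),
      (∀ p ∈ l, (p.2.1.1 < ni ∧ p.2.1.2.1 < na ∧ p.2.1.2.2 < na) ∧
        (p.2.2.1 < ni ∧ p.2.2.2.1 < na ∧ p.2.2.2.2 < na) ∧
        p.2.1.1 + p.2.1.2.1 + p.2.1.2.2 ≤ S0) →
      (16 : ℝ) ^ S0 * val2 G2 l =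
        ∑ L ∈ range (S0 + 1), ∑ i ∈ range ((L + 1) / 2), ∑ j ∈ range ((L + 1) / 2),
          (lin2 S0 L (T L) l i j : ℝ) * rho2 G2 L (2 * i + 1) (2 * j + 1)

end Vale.Agent.P359.Gap.Cert
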