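import Vale.Agent.P359.Gap.Cert.Expand
import Vale.Agent.P359.Gap.Coordinates

/-!
# P359 gap: the tables compute the expansions
-/

namespace Vale.Agent.P359.Gap.Cert

open Finset Nat

theorem ite_pos_eq (t : ℕ) (x : ℤ) : (if 0 < t then x else 0) = if t = 0 then 0 else x := by
  rcases t with _ | t <;> simp

theorem getD_range_map (n : ℕ) (f : ℕ → ℤ) (t : ℕ) :
    ((List.range n).map f).getD t 0 = if t < n then f t else 0 := by
  rcases lt_or_ge t n with h | h <;> simp [List.getD_eq_getElem?_getD, h, not_lt.2]

theorem getD_mul1 (c d : ℤ) (r : List ℤ) (t : ℕ) : (mul1 c d r).getD t 0 =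
    c * (if t = 0 then 0 else r.getD (t - 1) 0) + d * r.getD t 0 := by
  rw [mul1, getD_range_map]
  split_ifs <;> simp_all; simp [show r.length ≤ t by omega,
    show r.length ≤ t - 1 by omega]

theorem row1_getD {ni na : ℕ} {T : Tab1} (h : check1 ni na T = true) :
    ∀ i a, i < ni → a < na → ∀ t, (row1 T i a).getD t 0 = coef1 i a t := by
  have hrow : ∀ i a, i < ni → a < na → row1 T i a = rule1 T i a := by
    simp only [check1, List.all_eq_true, List.mem_range, decide_eq_true_eq] at h
    exact fun i a hi ha => h i hi a ha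
  intro i
  induction i with
  | zero =>
    intro a
    induction a with
    | zero =>
      intro hi ha t
      rw [hrow 0 0 hi ha, rule1, coef1_zero]
      rcases t with _ | t <;> simp
    | succ a ih =>
      intro hi ha t
      rw [hrow 0 _ hi ha, rule1, getD_mul1, coef1_succ_right, ite_pos_eq, ih hi (by omega), ih hi (by omega)]
      ring
  | succ i ih =>
    intro a hi ha t
    rw [hrow _ a hi ha, rule1, getD_mul1, coef1_succ_left, ite_pos_eq, ih a (by omega) ha, ih a (by omega) ha]
    ring

theorem coef2_eq_zero : ∀ i a b t q, i + a + b < t + q → coef2 i a b t q = 0 := by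
  intro i
  induction i with
  | zero =>
    intro a
    induction a with
    | zero =>
      intro b
      induction b with
      | zero => intro t q h; rw [coef2_zero, if_neg]; omega
      | succ b ih =>
        intro t q h
        rw [coef2_succ_b, ite_pos_eq, ite_pos_eq, ih t q (by omega)]
        split_ifs <;> simp
        · rw [ih t (q - 1) (by omega)]
        · rw [ih (t - 1) q (by omega)]
        · rw [ih (t - 1) q (by omega), ih t (q - 1) (by omega)]; simp
    | succ a ih =>
      intro b t q h
      rw [coef2_succ_a, ite_pos_eq, ite_pos_eq, ih b t q (by omega)]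
      split_ifs <;> simp
      · rw [ih b t (q - 1) (by omega)]
      · rw [ih b (t - 1) q (by omega)]
      · rw [ih b (t - 1) q (by omega), ih b t (q - 1) (by omega)]; simp
  | succ i ih =>
    intro a b t q h
    rw [coef2_succ_i, ite_pos_eq, ih a b t q (by omega)]
    split_ifs <;> simp
    rw [ih a b (t - 1) q (by omega)]

/-- The coefficient at degree `L`, zero above the level. -/
def deg2 (i a b L q : ℕ) : ℤ := if L ≤ i + a + b then coef2 i a b (i + a + b - L) q else 0

theorem getD_mul2 (L : ℕ) (c d e : ℤ) (same below : List ℤ) (q : ℕ) :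
    (mul2 L c d e same below).getD q 0 = if q ≤ L then
      c * same.getD q 0 + d * below.getD q 0 + e * (if q = 0 then 0 else below.getD (q - 1) 0)
    else 0 := by
  rw [mul2, getD_range_map]
  simp only [Nat.lt_succ_iff]

/-- The degree recursion: `dn` is the coefficient one degree lower. -/
theorem deg2_step {i a b i' a' b' : ℕ} {c d e : ℤ}
    (hs : i' + a' + b' = i + a + b + 1)
    (h : ∀ t q, coef2 i' a' b' t q = c * (if t = 0 then 0 else coef2 i a b (t - 1) q) +
      d * coef2 i a b t q + e * (if q = 0 then 0 else coef2 i a b t (q - 1)))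
    (L : ℕ) (hL : L ≤ i + a + b + 1) (dn : ℕ → ℤ)
    (hdn : ∀ q, dn q = if L = 0 then 0 else deg2 i a b (L - 1) q) (q : ℕ) :
    deg2 i' a' b' L q = if q ≤ L then
      c * deg2 i a b L q + d * dn q + e * (if q = 0 then 0 else dn (q - 1)) else 0 := by
  by_cases hq : q ≤ L
  · rw [if_pos hq, deg2, hs, if_pos hL, h]
    have e1 : (if i + a + b + 1 - L = 0 then 0 else coef2 i a b (i + a + b + 1 - L - 1) q) =
        deg2 i a b L q := by
      unfold deg2
      split_ifs with h1 h2 h2 <;> first | rfl | omega | (congr 1; omega)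
    have e2 : ∀ q, q ≤ L → coef2 i a b (i + a + b + 1 - L) q = dn q := by
      intro q hq
      rw [hdn]
      split_ifs with h0
      · exact coef2_eq_zero _ _ _ _ _ (by omega)
      · rw [deg2, if_pos (by omega)]
        congr 1
        omega
    rw [e1, e2 q hq]
    split_ifs with h0
    · rfl
    · rw [e2 (q - 1) (by omega)]
  · rw [if_neg hq, deg2, hs, if_pos hL]
    exact coef2_eq_zero _ _ _ _ _ (by omega)

theorem row2_nil (i a b : ℕ) : row2 [] i a b = [] := by simp [row2]

/-- One degree of the tables. -/
theorem row2_getD_step {ni na L : ℕ} {below T : Tab2}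
    (hc : check2 ni na L below T = true)
    (hb : ∀ i a b, i < ni → a < na → b < na → ∀ q, (row2 below i a b).getD q 0 =
      if L = 0 then 0 else deg2 i a b (L - 1) q) :
    ∀ i a b, i < ni → a < na → b < na → ∀ q, (row2 T i a b).getD q 0 = deg2 i a b L q := by
  have hrow : ∀ i a b, i < ni → a < na → b < na →
      row2 T i a b = if i + a + b < L then [] else rule2 L below T i a b := by
    simp only [check2, List.all_eq_true, List.mem_range, decide_eq_true_eq] at hc
    exact fun i a b hi ha hb => hc i hi a ha b hb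
  have hlow : ∀ i a b, i + a + b < L → ∀ q, deg2 i a b L q = 0 := fun i a b h q => by
    rw [deg2, if_neg (by omega)]
  intro i
  induction i with
  | zero =>
    intro a
    induction a with
    | zero =>
      intro b
      induction b with
      | zero =>
        intro hi ha hb' q
        rw [hrow 0 0 0 hi ha hb']
        split_ifs with hL
        · simp [hlow 0 0 0 hL]
        · have : L = 0 := by omega
          subst this
          rw [rule2, deg2, coef2_zero]
          rcases q with _ | q <;> simp
      | succ b ih =>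
        intro hi ha hb' q
        rw [hrow 0 0 _ hi ha hb']
        split_ifs with hL
        · simp [hlow 0 0 _ hL]
        · rw [rule2, getD_mul2, deg2_step (i := 0) (a := 0) (b := b) (c := 1) (d := -1) (e := -2)
            (by omega) (fun t q => by rw [coef2_succ_b, ite_pos_eq, ite_pos_eq]; ring) L (by omega) _
            (hb 0 0 b hi ha (by omega)) q, ih hi ha (by omega) q]
    | succ a ih =>
      intro b hi ha hb' q
      rw [hrow 0 _ b hi ha hb']
      split_ifs with hL
      · simp [hlow 0 _ b hL]
      · rw [rule2, getD_mul2, deg2_step (i := 0) (a := a) (b := b) (c := 1) (d := -1) (e := 2)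
          (by omega) (fun t q => by rw [coef2_succ_a, ite_pos_eq, ite_pos_eq]; ring) L (by omega) _
          (hb 0 a b hi (by omega) hb') q, ih b hi (by omega) hb' q]
  | succ i ih =>
    intro a b hi ha hb' q
    rw [hrow _ a b hi ha hb']
    split_ifs with hL
    · simp [hlow _ a b hL]
    · rw [rule2, getD_mul2, deg2_step (i := i) (a := a) (b := b) (c := 2) (d := 2) (e := 0)
        (by omega) (fun t q => by rw [coef2_succ_i, ite_pos_eq]; ring) L (by omega) _
        (hb i a b (by omega) ha hb') q, ih a b (by omega) ha hb' q]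

theorem row2_getD {ni na S0 : ℕ} {T : ℕ → Tab2}
    (h0 : check2 ni na 0 [] (T 0) = true)
    (hs : ∀ L, L < S0 → check2 ni na (L + 1) (T L) (T (L + 1)) = true) :
    ∀ L, L ≤ S0 → ∀ i a b, i < ni → a < na → b < na →
      ∀ q, (row2 (T L) i a b).getD q 0 = deg2 i a b L q := by
  intro L
  induction L with
  | zero => exact fun _ => row2_getD_step h0 fun i a b _ _ _ q => by simp [row2_nil]
  | succ L ih =>
    intro hL
    exact row2_getD_step (hs L (by omega)) fun i a b hi ha hb q => by
      rw [ih (by omega) i a b hi ha hb q, if_neg (by omega), Nat.add_sub_cancel]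

theorem odds_getD : ∀ (l : List ℤ) (i : ℕ), (odds l).getD i 0 = l.getD (2 * i + 1) 0
  | [], i => by simp [odds]
  | [a], i => by simp [odds]
  | a :: b :: l, 0 => by simp [odds]
  | a :: b :: l, i + 1 => by
    rw [odds, List.getD_cons_succ, odds_getD l i, show 2 * (i + 1) + 1 = 2 * i + 1 + 1 + 1 by omega,
      List.getD_cons_succ, List.getD_cons_succ]

/-- A sum over degrees with vanishing even terms. -/
theorem sum_odd {β : Type*} [AddCommMonoid β] (f : ℕ → β) :
    ∀ L, (∀ q, q ≤ L → Even q → f q = 0) →
      ∑ q ∈ range (L + 1), f q = ∑ i ∈ range ((L + 1) / 2), f (2 * i + 1) := by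
  intro L
  induction L with
  | zero => intro h; simp [h 0 le_rfl Even.zero]
  | succ L ih =>
    intro h
    rw [sum_range_succ, ih fun q hq => h q (by omega)]
    rcases Nat.even_or_odd (L + 1) with he | ho
    · rw [h _ le_rfl he, add_zero]
      obtain ⟨k, hk⟩ := he
      rw [show (L + 1 + 1) / 2 = (L + 1) / 2 by omega]
    · obtain ⟨k, hk⟩ := ho
      rw [show (L + 1 + 1) / 2 = (L + 1) / 2 + 1 by omega, sum_range_succ,
        show 2 * ((L + 1) / 2) + 1 = L + 1 by omega]

theorem sum_filterMap_if {α β : Type*} (l : List α) (P : α → Prop) [DecidablePred P] (g : α → β)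
    (h : β → ℝ) : ((l.filterMap fun p => if P p then some (g p) else none).map h).sum =
      (l.map fun p => if P p then h (g p) else 0).sum := by
  induction l with
  | nil => simp
  | cons p l ih => by_cases hp : P p <;> simp [hp, ih]

theorem intCast_sum_map {α : Type*} (l : List α) (f : α → ℤ) :
    (((l.map f).sum : ℤ) : ℝ) = (l.map fun x => (f x : ℝ)).sum := by
  induction l with
  | nil => simp
  | cons a l ih => simp [ih]

theorem sum_map_comm {α : Type*} (l : List α) (s : Finset ℕ) (f : α → ℕ → ℝ) :
    (l.map fun x => ∑ k ∈ s, f x k).sum = ∑ k ∈ s, (l.map fun x => f x k).sum := by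
  induction l with
  | nil => simp
  | cons a l ih => simp [ih, Finset.sum_add_distrib]

theorem expand1 : Expand1Target := by
  intro G1 G2 hG ni na S0 T hT l hl
  have hrow := row1_getD hT
  rw [val1, ← List.sum_map_mul_left]
  simp only [lin1, intCast_sum_map, ← List.sum_map_mul_right]
  rw [← sum_map_comm]
  refine congrArg List.sum (List.map_congr_left fun p hp => ?_)
  obtain ⟨⟨hi, ha⟩, ⟨hi', ha'⟩, hS⟩ := hl p hp
  obtain ⟨c, ⟨i, a⟩, ⟨i', a'⟩⟩ := p
  simp only at hi ha hi' ha' hS ⊢
  by_cases hlev : i + a = i' + a'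
  · have he := (coord hG).expand1 i a i' a' hlev
    have h9 : (9 : ℝ) ^ S0 = 9 ^ (S0 - (i + a)) * 9 ^ (i + a) := by
      rw [← pow_add, Nat.sub_add_cancel hS]
    rw [h9, show (9 : ℝ) ^ (S0 - (i + a)) * 9 ^ (i + a) * (↑c * G1 (i, a) (i', a')) =
      ↑c * 9 ^ (S0 - (i + a)) * (9 ^ (i + a) * G1 (i, a) (i', a')) by ring, he,
      mul_sum, ← sum_range_reflect _ (i + a + 1)]
    refine Eq.trans (sum_congr rfl fun M hM => ?_) (sum_subset
      (range_subset_range.2 (by omega : i + a + 1 ≤ S0 + 1)) fun M _ hM => by
        rw [if_neg (by simp at hM; omega)]; simp)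
    rw [mem_range] at hM
    rw [if_pos ⟨hlev, by omega⟩, hrow i a hi ha, hrow i' a' hi' ha',
      show i + a + 1 - 1 - M = i + a - M by omega, show i + a - (i + a - M) = M by omega]
    push_cast
    ring
  · rw [hG.level1 i a i' a' hlev]
    simp [hlev]

theorem expand2 : Expand2Target := by
  intro G1 G2 hG ni na S0 T h0 hs l hl
  have hrow := row2_getD h0 hs
  rw [val2, ← List.sum_map_mul_left]
  simp only [lin2, terms2, intCast_sum_map]
  conv_rhs => enter [2, L, 2, i, 2, j, 1]; rw [sum_filterMap_if]
  simp only [← List.sum_map_mul_right, ← sum_map_comm]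
  refine congrArg List.sum (List.map_congr_left fun p hp => ?_)
  obtain ⟨⟨hi, ha, hb⟩, ⟨hi', ha', hb'⟩, hS⟩ := hl p hp
  obtain ⟨c, ⟨i, a, b⟩, ⟨i', a', b'⟩⟩ := p
  simp only at hi ha hb hi' ha' hb' hS ⊢
  by_cases hlev : i + a + b = i' + a' + b'
  · have hC := coord hG
    have he := hC.expand2 i a b i' a' b' hlev
    have h16 : (16 : ℝ) ^ S0 = 16 ^ (S0 - (i + a + b)) * 16 ^ (i + a + b) := by
      rw [← pow_add, Nat.sub_add_cancel hS]
    rw [h16, show (16 : ℝ) ^ (S0 - (i + a + b)) * 16 ^ (i + a + b) *
      (↑c * G2 (i, a, b) (i', a', b')) = ↑c * 16 ^ (S0 - (i + a + b)) *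
        (16 ^ (i + a + b) * G2 (i, a, b) (i', a', b')) by ring, he,
      mul_sum, ← sum_range_reflect _ (i + a + b + 1)]
    refine Eq.trans (sum_congr rfl fun L hL => ?_) (sum_subset
      (range_subset_range.2 (by omega : i + a + b + 1 ≤ S0 + 1)) fun L _ hL =>
        sum_eq_zero fun x _ => sum_eq_zero fun y _ => by
          rw [if_neg (by simp at hL; omega)]; simp)
    rw [mem_range] at hL
    rw [show i + a + b + 1 - 1 - L = i + a + b - L by omega,
      show i + a + b - (i + a + b - L) = L by omega]
    rw [sum_odd _ L fun q hq he => sum_eq_zero fun q' hq' => by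
      rw [hC.even2 L q q' hq (Nat.lt_succ_iff.1 (mem_range.1 hq')) he]; simp, mul_sum, mul_sum]
    refine sum_congr rfl fun x hx => ?_
    rw [mem_range] at hx
    rw [sum_odd _ L fun q' hq' he => by
      rw [hC.symm2 L (2 * x + 1) q' (by omega) hq', hC.even2 L q' (2 * x + 1) hq' (by omega) he]
      simp, mul_sum, mul_sum]
    refine sum_congr rfl fun y hy => ?_
    rw [mem_range] at hy
    rw [if_pos ⟨hlev, by omega⟩]
    simp only [odds_getD, hrow L (by omega) i a b hi ha hb, hrow L (by omega) i' a' b' hi' ha' hb',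
      deg2, ← hlev, if_pos (show L ≤ i + a + b by omega)]
    push_cast
    ring
  · rw [hG.level2 i a b i' a' b' hlev]
    simp [hlev]

end Vale.Agent.P359.Gap.Cert
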