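import Vale.Agent.P359.Gap.Cert.Expand
import Mathlib.Tactic.Ring
import Mathlib.Data.List.GetD
import Mathlib.Tactic.Positivity
import Mathlib.Algebra.BigOperators.Ring.Finset
import Mathlib.Algebra.BigOperators.GroupWithZero.Finset

/-!
# P359 gap: the nonnegative forms of the certificate
-/

namespace Vale.Agent.P359.Gap.Cert

open Finset Nat

variable {α β : Type}

/-- The Gram table of the rows of a factor. -/
noncomputable def gram (U : List (List ℤ)) : List (List ℤ) :=
  U.map fun r => U.map fun r' => dotInt r r'

/-- The one particle pairs of a particle-hole block. -/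
def pairsOne (st : List X2) (W : List (List ℤ)) (c : List ℤ) : List (ℤ × X1 × X1) :=
  ((st.zip W).flatMap fun x => (st.zip x.2).flatMap fun y =>
    if x.1.2.2 = y.1.2.2 then
      [(y.2 * ((x.1.2.2 ! : ℕ) : ℤ), (x.1.1, x.1.2.1), (y.1.1, y.1.2.1))]
    else []) ++
  (st.zip c).map fun x => (2 * x.2, (x.1.1, x.1.2.1), (0, x.1.2.2))

/-- The two particle pairs of a particle-hole block. -/
def pairsTwo (st : List X2) (W : List (List ℤ)) : List (ℤ × X2 × X2) :=
  (st.zip W).flatMap fun x => (st.zip x.2).map fun y =>
    (y.2, (x.1.1, x.1.2.1, y.1.2.2), (y.1.1, x.1.2.2, y.1.2.1))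

/-- The constant of a hole form. -/
def holeConst (l : ℕ) (v : List ℤ) : ℤ :=
  ((List.range v.length).map fun n =>
    v.getD n 0 * v.getD n 0 * ((2 ^ n * n ! * (n + l)! : ℕ) : ℤ)).sum

/-- The pairs of a hole form. -/
def pairsHole (l : ℕ) (v : List ℤ) : List (ℤ × X1 × X1) :=
  (List.range v.length).flatMap fun n => (List.range v.length).map fun m =>
    (-(v.getD n 0 * v.getD m 0), (n, m + l), (m, n + l))

/-- Multiplication of the weights by an integer. -/
def scale {γ : Type} (k : ℤ) (l : List (ℤ × γ)) : List (ℤ × γ) := l.map fun p => (k * p.1, p.2)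

lemma sum_flatMap (l : List α) (f : α → List β) (g : β → ℝ) :
    ((l.flatMap f).map g).sum = (l.map fun x => ((f x).map g).sum).sum := by
  induction l with
  | nil => simp
  | cons a l ih => simp [ih]

lemma sum_finset_comm {ι : Type} (l : List α) (s : Finset ι) (f : α → ι → ℝ) :
    (l.map fun x => ∑ i ∈ s, f x i).sum = ∑ i ∈ s, (l.map fun x => f x i).sum := by
  induction l with
  | nil => simp
  | cons a l ih => simp [ih, Finset.sum_add_distrib]

lemma sum_map_add (l : List α) (f g : α → ℝ) :
    (l.map fun x => f x + g x).sum = (l.map f).sum + (l.map g).sum := by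
  induction l with
  | nil => simp
  | cons a l ih => simp only [List.map_cons, List.sum_cons, ih]; ring

lemma sum_range_list (n : ℕ) (f : ℕ → ℝ) : ((List.range n).map f).sum = ∑ i ∈ range n, f i := by
  induction n with
  | zero => simp
  | succ n ih => simp [List.range_succ, Finset.sum_range_succ, ih]

lemma dotInt_eq : ∀ (r : ℕ) (x y : List ℤ), x.length = r → y.length = r →
    (dotInt x y : ℝ) = ∑ s ∈ range r, (x.getD s 0 : ℝ) * (y.getD s 0 : ℝ)
  | 0, x, y, hx, hy => by
    simp [List.length_eq_zero_iff.1 hx, List.length_eq_zero_iff.1 hy, dotInt]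
  | r + 1, a :: x, b :: y, hx, hy => by
    have h := dotInt_eq r x y (by simpa using hx) (by simpa using hy)
    rw [Finset.sum_range_succ']
    simp only [dotInt, List.zipWith_cons_cons, List.sum_cons, List.getD_cons_succ,
      List.getD_cons_zero] at h ⊢
    rw [Int.cast_add, Int.cast_mul, h]
    ring

lemma zip_map_right' (st : List α) (U : List β) {γ : Type} (f : β → γ) :
    st.zip (U.map f) = (st.zip U).map fun z => (z.1, f z.2) := by
  induction st generalizing U with
  | nil => simp
  | cons a st ih => cases U with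
    | nil => simp
    | cons b U => simp [ih]

/-- The vector cut out of a factor by one column. -/
noncomputable def column (st : List α) (U : List (List ℤ)) (s : ℕ) : List (α × ℝ) :=
  (st.zip U).map fun z => (z.1, (z.2.getD s 0 : ℝ))

/-- A Gram table is the sum over columns of the rank one forms. -/
lemma gram_form (st : List α) (U : List (List ℤ)) (r : ℕ) (hU : ∀ x ∈ U, x.length = r)
    (Φ : α → α → ℝ) :
    ((st.zip (gram U)).map fun x =>
      ((st.zip x.2).map fun y => (y.2 : ℝ) * Φ x.1 y.1).sum).sum =
    ∑ s ∈ range r, bil Φ (column st U s) (column st U s) := by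
  have hm : ∀ z ∈ st.zip U, z.2.length = r := fun z hz => hU _ (List.of_mem_zip hz).2
  simp only [gram, zip_map_right', bil, column, List.map_map, Function.comp_def]
  rw [← sum_finset_comm]
  refine congrArg List.sum (List.map_congr_left fun z hz => ?_)
  rw [← sum_finset_comm]
  refine congrArg List.sum (List.map_congr_left fun z' hz' => ?_)
  rw [dotInt_eq r _ _ (hm z hz) (hm z' hz'), Finset.sum_mul]

variable {G1 : X1 → X1 → ℝ} {G2 : X2 → X2 → ℝ}

lemma val1_append (l m : List (ℤ × X1 × X1)) : val1 G1 (l ++ m) = val1 G1 l + val1 G1 m := by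
  simp [val1]

lemma val2_append (l m : List (ℤ × X2 × X2)) : val2 G2 (l ++ m) = val2 G2 l + val2 G2 m := by
  simp [val2]

lemma val1_scale (k : ℤ) (l : List (ℤ × X1 × X1)) : val1 G1 (scale k l) = (k : ℝ) * val1 G1 l := by
  induction l with
  | nil => simp [val1, scale]
  | cons a l ih =>
    simp only [val1, scale, List.map_cons, List.sum_cons] at ih ⊢
    rw [ih]; push_cast; ring

/-- A particle-hole block given by a factor has a nonnegative form. -/
theorem block_nonneg (h : IsPlanar G1 G2) (st : List X2) (U W : List (List ℤ)) (u c : List ℤ)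
    (r : ℕ) (hU : ∀ x ∈ U, x.length = r) (hu : u.length = r) (hW : W = gram U)
    (hc : c = U.map fun x => dotInt x u) :
    0 ≤ (dotInt u u : ℝ) + val1 G1 (pairsOne st W c) + val2 G2 (pairsTwo st W) := by
  subst hW hc
  let Φ : X2 → X2 → ℝ := fun x y =>
    (if x.2.2 = y.2.2 then (x.2.2 ! : ℝ) * G1 (x.1, x.2.1) (y.1, y.2.1) else 0) +
      G2 (x.1, x.2.1, y.2.2) (y.1, x.2.2, y.2.1)
  have key : (dotInt u u : ℝ) + val1 G1 (pairsOne st (gram U) (U.map fun x => dotInt x u)) +
      val2 G2 (pairsTwo st (gram U)) = ∑ s ∈ range r, ((u.getD s 0 : ℝ) * (u.getD s 0 : ℝ) +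
        2 * ((column st U s).map fun x =>
          x.2 * (u.getD s 0 : ℝ) * G1 (x.1.1, x.1.2.1) (0, x.1.2.2)).sum +
        bil Φ (column st U s) (column st U s)) := by
    rw [Finset.sum_add_distrib, Finset.sum_add_distrib, ← dotInt_eq r u u hu hu,
      ← gram_form st U r hU Φ, pairsOne, val1_append]
    have e1 : val1 G1 ((st.zip (U.map fun x => dotInt x u)).map fun x =>
        (2 * x.2, (x.1.1, x.1.2.1), (0, x.1.2.2))) =
        ∑ s ∈ range r, 2 * ((column st U s).map fun x =>
          x.2 * (u.getD s 0 : ℝ) * G1 (x.1.1, x.1.2.1) (0, x.1.2.2)).sum := by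
      simp only [val1, column, zip_map_right', List.map_map, Function.comp_def,
        ← List.sum_map_mul_left]
      rw [← sum_finset_comm]
      refine congrArg List.sum (List.map_congr_left fun z hz => ?_)
      push_cast
      rw [dotInt_eq r _ _ (hU _ (List.of_mem_zip hz).2) hu, Finset.mul_sum, Finset.sum_mul]
      exact Finset.sum_congr rfl fun s _ => by ring
    have e2 : val1 G1 ((st.zip (gram U)).flatMap fun x => (st.zip x.2).flatMap fun y =>
        if x.1.2.2 = y.1.2.2 then
          [(y.2 * ((x.1.2.2 ! : ℕ) : ℤ), (x.1.1, x.1.2.1), (y.1.1, y.1.2.1))]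
        else []) + val2 G2 (pairsTwo st (gram U)) =
        ((st.zip (gram U)).map fun x =>
          ((st.zip x.2).map fun y => (y.2 : ℝ) * Φ x.1 y.1).sum).sum := by
      simp only [val1, val2, pairsTwo, sum_flatMap]
      rw [← sum_map_add]
      refine congrArg List.sum (List.map_congr_left fun x _ => ?_)
      rw [List.map_map, ← sum_map_add]
      refine congrArg List.sum (List.map_congr_left fun y _ => ?_)
      simp only [Φ, Function.comp_apply]
      split <;> (simp; try ring)
    rw [e1, ← e2]
    ring
  rw [key]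
  refine Finset.sum_nonneg fun s _ => ?_
  have := h.partHole [(0, (u.getD s 0 : ℝ))] (column st U s)
  simpa [bil, Φ, mul_assoc] using this

/-- A hole form is nonnegative. -/
theorem hole_nonneg (h : IsPlanar G1 G2) (l : ℕ) (v : List ℤ) :
    0 ≤ (holeConst l v : ℝ) + val1 G1 (pairsHole l v) := by
  have := h.hole ((List.range v.length).map fun n => ((n, n + l), (v.getD n 0 : ℝ)))
  convert this using 1
  simp only [bil, List.map_map, Function.comp_def, sum_range_list, holeConst, val1, pairsHole,
    sum_flatMap, Prod.mk.injEq]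
  rw [Int.cast_list_sum, List.map_map, sum_range_list, sub_eq_add_neg, ← Finset.sum_neg_distrib]
  congr 1
  · refine Finset.sum_congr rfl fun n hn => ?_
    rw [Finset.sum_eq_single n (fun m _ hm => by rw [if_neg (fun e => hm e.1.symm)]; ring)
      (fun h => absurd hn h)]
    simp
  · refine Finset.sum_congr rfl fun n _ => ?_
    rw [← Finset.sum_neg_distrib]
    exact Finset.sum_congr rfl fun m _ => by push_cast; ring

/-- A column of a factor. -/
def colOf (U : List (List ℤ)) (s : ℕ) : List ℤ := U.map fun r => r.getD s 0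

/-- A packed check that a table is the Gram table of a factor with `r` columns. -/
def checkGram (U W : List (List ℤ)) (n r : ℕ) (BX BY : ℤ) : Bool :=
  decide (BX = BY ^ n) && decide (U.length = n) && (U.all fun x => decide (x.length = r)) &&
  decide (W.length = n) && (W.all fun x => decide (x.length = n)) &&
  decide (((List.range r).map fun s => pack BX (colOf U s) * pack BY (colOf U s)).sum =
    pack BX (W.map (pack BY))) &&
  decide (2 * (((List.range r).map fun s =>
    ((colOf U s).map fun x => |x|).sum * ((colOf U s).map fun x => |x|).sum).sum + sizeMat W) < BY)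

lemma gram_of_check (hp : PackTarget) {U W : List (List ℤ)} {n r : ℕ} {BX BY : ℤ}
    (h : checkGram U W n r BX BY = true) : W = gram U := by
  simp only [checkGram, Bool.and_eq_true, List.all_eq_true, decide_eq_true_eq] at h
  obtain ⟨⟨⟨⟨⟨⟨h0, h1⟩, h2⟩, h3⟩, h4⟩, h5⟩, h6⟩ := h
  subst h0
  have hps := hp BY n ((List.range r).map fun s => ((1 : ℤ), colOf U s, colOf U s)) W
    (fun p hp' => by
      obtain ⟨s, -, rfl⟩ := List.mem_map.1 hp'
      simp [colOf, h1]) h3 h4
    (by simpa [packTerm, packMat, Function.comp_def] using h5)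
    (by simpa [sizeTerm, Function.comp_def] using h6)
  refine List.ext_getElem (by simp [gram, h1, h3]) fun i hi hi' => ?_
  have hWi : (W[i]).length = n := h4 _ (List.getElem_mem _)
  refine List.ext_getElem (by simp [gram, h1, hWi]) fun j hj hj' => ?_
  have hi'' : i < U.length := by omega
  have hj'' : j < U.length := by omega
  have e : ((W[i][j] : ℤ) : ℝ) = (((gram U)[i][j] : ℤ) : ℝ) := by
    have := hps i (by omega) j (by omega)
    rw [entry, List.getD_eq_getElem _ _ hi, List.getD_eq_getElem _ _ hj] at this
    rw [← this]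
    simp only [gram, List.getElem_map, dotInt_eq r _ _ (h2 _ (List.getElem_mem _))
      (h2 _ (List.getElem_mem _)), colOf, List.map_map, Function.comp_def, Int.cast_list_sum,
      sum_range_list]
    refine Finset.sum_congr rfl fun s _ => ?_
    rw [List.getD_eq_getElem _ _ (by simpa using hi''), List.getD_eq_getElem _ _ (by simpa using hj'')]
    simp
  exact_mod_cast e

end Vale.Agent.P359.Gap.Cert
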