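import Vale.Agent.P359.Gap.Cert.Core
import Mathlib.Tactic.Ring
import Mathlib.Tactic.Linarith
import Mathlib.Tactic.Positivity
import Mathlib.Data.List.GetD
import Mathlib.Algebra.Order.Ring.Abs

/-!
# P359 gap: soundness of the integer checks
-/

namespace Vale.Agent.P359.Gap.Cert

open Finset

lemma entry_eq {A : List (List ℤ)} {i j : ℕ} (hi : i < A.length) :
    entry A i j = A[i].getD j 0 := by
  rw [entry, List.getD_eq_getElem A [] hi]

lemma entry_schur {a : ℤ} {b : List ℤ} {A : List (List ℤ)} {n i j : ℕ} (hb : b.length = n)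
    (hA : A.length = n) (hr : ∀ r ∈ A, r.length = n) (hi : i < n) (hj : j < n) :
    entry (schur a b A) i j = a * entry A i j - b.getD i 0 * b.getD j 0 := by
  have hiA : i < A.length := by omega
  have hr' : A[i].length = n := hr _ (List.getElem_mem hiA)
  rw [entry_eq (A := schur a b A) (by simp [schur]; omega), entry_eq hiA]
  simp only [schur, List.getElem_zipWith]
  rw [List.getD_eq_getElem _ _ (by simp [List.length_zipWith]; omega),
    List.getD_eq_getElem A[i] 0 (by omega), List.getD_eq_getElem b 0 (show i < b.length by omega),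
    List.getD_eq_getElem b 0 (show j < b.length by omega), List.getElem_zipWith]

/-- Soundness of the elimination check. -/
theorem psd_check : PsdCheckTarget := by
  intro n
  induction n with
  | zero => intro A _ w; simp
  | succ n ih =>
    intro A hA w
    match A with
    | [] => simp [psdCheck] at hA
    | [] :: rest => simp [psdCheck] at hA
    | (a :: b) :: rest =>
      simp only [psdCheck, Bool.and_eq_true, decide_eq_true_eq] at hA
      obtain ⟨⟨hb, hl, hrow, hcol⟩, hrec⟩ := hA
      let sub := rest.map fun r => r.tail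
      have hsubl : sub.length = n := by simp [sub, hl]
      have hsubr : ∀ r ∈ sub, r.length = n := by
        intro r hr
        obtain ⟨q, hq, rfl⟩ := List.mem_map.1 hr
        simp [hrow q hq]
      have e00 : entry ((a :: b) :: rest) 0 0 = a := rfl
      have e0 : ∀ j, entry ((a :: b) :: rest) 0 (j + 1) = b.getD j 0 := fun j => rfl
      have ei : ∀ i, i < n → entry ((a :: b) :: rest) (i + 1) 0 = b.getD i 0 := by
        intro i hi
        rw [← hcol, entry, List.getD_cons_succ, List.getD_eq_getElem rest [] (by omega),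
          List.getD_eq_getElem (rest.map fun r => r.headD 0) 0 (by rw [List.length_map]; omega), List.getElem_map]
        rcases rest[i] with _ | ⟨x, l⟩ <;> rfl
      have eij : ∀ i j, i < n → entry ((a :: b) :: rest) (i + 1) (j + 1) = entry sub i j := by
        intro i j hi
        rw [entry, List.getD_cons_succ, List.getD_eq_getElem rest [] (by omega),
          entry_eq (A := sub) (by omega)]
        simp only [sub, List.getElem_map]
        rcases rest[i] with _ | ⟨x, l⟩ <;> rfl
      set T := ∑ i ∈ range n, w (i + 1) * (b.getD i 0 : ℝ) with hT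
      set S := ∑ i ∈ range n, ∑ j ∈ range n,
        w (i + 1) * w (j + 1) * (entry sub i j : ℝ) with hS
      have hq : ∑ i ∈ range (n + 1), ∑ j ∈ range (n + 1),
          w i * w j * (entry ((a :: b) :: rest) i j : ℝ) = (a : ℝ) * w 0 ^ 2 + 2 * w 0 * T + S := by
        simp only [Finset.sum_range_succ', Finset.sum_add_distrib]
        rw [Finset.sum_congr rfl fun i hi => Finset.sum_congr rfl fun j _ => by
            rw [eij i j (Finset.mem_range.1 hi)],
          Finset.sum_congr rfl (s₁ := range n) (f := fun i => w (i + 1) * w 0 *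
            (entry ((a :: b) :: rest) (i + 1) 0 : ℝ)) fun i hi => by rw [ei i (Finset.mem_range.1 hi)],
          Finset.sum_congr rfl (s₁ := range n) (f := fun j => w 0 * w (j + 1) *
            (entry ((a :: b) :: rest) 0 (j + 1) : ℝ)) fun j _ => by rw [e0 j]]
        rw [e00, ← hS]
        have h1 : ∑ i ∈ range n, w (i + 1) * w 0 * (b.getD i 0 : ℝ) = w 0 * T := by
          rw [hT, Finset.mul_sum]; exact Finset.sum_congr rfl fun i _ => by ring
        have h2 : ∑ i ∈ range n, w 0 * w (i + 1) * (b.getD i 0 : ℝ) = w 0 * T := by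
          rw [hT, Finset.mul_sum]; exact Finset.sum_congr rfl fun i _ => by ring
        rw [h1, h2]
        ring
      rw [hq]
      by_cases ha : 0 < a
      · rw [if_pos ha] at hrec
        have hs := ih _ hrec fun i => w (i + 1)
        have he : ∑ i ∈ range n, ∑ j ∈ range n,
            w (i + 1) * w (j + 1) * (entry (schur a b sub) i j : ℝ) = (a : ℝ) * S - T * T := by
          rw [hS, hT, Finset.sum_mul_sum, Finset.mul_sum, ← Finset.sum_sub_distrib]
          refine Finset.sum_congr rfl fun i hi => ?_
          rw [Finset.mul_sum, ← Finset.sum_sub_distrib]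
          refine Finset.sum_congr rfl fun j hj => ?_
          rw [entry_schur hb hsubl hsubr (Finset.mem_range.1 hi) (Finset.mem_range.1 hj)]
          push_cast
          ring
        rw [he] at hs
        have ha' : (0 : ℝ) < a := by exact_mod_cast ha
        have h2 : 0 ≤ (a : ℝ) * ((a : ℝ) * w 0 ^ 2 + 2 * w 0 * T + S) := by
          nlinarith [sq_nonneg ((a : ℝ) * w 0 + T)]
        exact nonneg_of_mul_nonneg_right h2 ha'
      · rw [if_neg ha, Bool.and_eq_true, decide_eq_true_eq] at hrec
        obtain ⟨⟨ha0, hb0⟩, hrec⟩ := hrec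
        have hs := ih _ hrec fun i => w (i + 1)
        have hT0 : T = 0 := by
          refine Finset.sum_eq_zero fun i hi => ?_
          have hib : i < b.length := by have := Finset.mem_range.1 hi; omega
          rw [List.getD_eq_getElem b 0 hib, hb0 _ (List.getElem_mem hib)]
          simp
        rw [hT0, ha0]
        simpa using hs

lemma sum_map_getD {α β : Type} [AddCommMonoid β] (f : α → β) (d : α) (hf : f d = 0)
    (l : List α) {k : ℕ} (h : l.length ≤ k) :
    (l.map f).sum = ∑ i ∈ range k, f (l.getD i d) := by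
  induction l generalizing k with
  | nil => simp [hf]
  | cons a l ih =>
    obtain ⟨m, rfl⟩ : ∃ m, k = m + 1 := ⟨k - 1, by simp at h; omega⟩
    rw [Finset.sum_range_succ', List.map_cons, List.sum_cons, ih (k := m) (by simp at h; omega)]
    simp only [List.getD_cons_succ, List.getD_cons_zero]
    rw [add_comm]

lemma pack_eq (B : ℤ) (l : List ℤ) {k : ℕ} (h : l.length ≤ k) :
    pack B l = ∑ i ∈ range k, B ^ i * l.getD i 0 := by
  induction l generalizing k with
  | nil => simp [pack]
  | cons a l ih =>
    obtain ⟨m, rfl⟩ : ∃ m, k = m + 1 := ⟨k - 1, by simp at h; omega⟩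
    rw [Finset.sum_range_succ', pack, ih (k := m) (by simp at h; omega), Finset.mul_sum]
    simp only [List.getD_cons_succ, List.getD_cons_zero, pow_zero, one_mul, pow_succ']
    rw [add_comm]
    simp only [mul_assoc]

lemma list_sum_comm {α : Type} (ps : List α) (k : ℕ) (f : α → ℕ → ℤ) :
    (ps.map fun p => ∑ i ∈ range k, f p i).sum = ∑ i ∈ range k, (ps.map fun p => f p i).sum := by
  induction ps with
  | nil => simp
  | cons a ps ih => simp [ih, Finset.sum_add_distrib]

lemma list_abs_le {α : Type} (ps : List α) (f : α → ℤ) :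
    |(ps.map f).sum| ≤ (ps.map fun p => |f p|).sum := by
  induction ps with
  | nil => simp
  | cons a ps ih =>
    simp only [List.map_cons, List.sum_cons]
    exact le_trans (abs_add_le _ _) (add_le_add le_rfl ih)

lemma coeff_zero {B : ℤ} : ∀ (n : ℕ) (d : ℕ → ℤ), (∀ i < n, |d i| < B) →
    ∑ i ∈ range n, B ^ i * d i = 0 → ∀ i < n, d i = 0
  | 0, _, _, _, _, h => absurd h (Nat.not_lt_zero _)
  | n + 1, d, hd, hsum, i, hi => by
    rw [Finset.sum_range_succ'] at hsum
    have e : ∑ i ∈ range n, B ^ (i + 1) * d (i + 1) = B * ∑ i ∈ range n, B ^ i * d (i + 1) := by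
      rw [Finset.mul_sum]; exact Finset.sum_congr rfl fun i _ => by ring
    rw [e, pow_zero, one_mul] at hsum
    set X := ∑ i ∈ range n, B ^ i * d (i + 1) with hX
    have h0 := hd 0 (Nat.succ_pos n)
    have hB : 0 < B := lt_of_le_of_lt (abs_nonneg _) h0
    have hX0 : X = 0 := by
      by_contra hne
      have h1 : B ≤ |B * X| := by
        rw [abs_mul, abs_of_pos hB]
        exact le_mul_of_one_le_right hB.le (Int.one_le_abs hne)
      rw [show B * X = -d 0 by linarith, abs_neg] at h1
      linarith
    rcases i with _ | j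
    · rw [hX0, mul_zero, zero_add] at hsum; exact hsum
    · exact coeff_zero n (fun i => d (i + 1)) (fun i hi => hd (i + 1) (by omega)) hX0 j (by omega)

/-- Soundness of packing. -/
theorem pack_sound : PackTarget := by
  intro B k ps R hps hR hrow hid hsize i hi j hj
  let D : ℕ → ℕ → ℤ := fun i j =>
    (ps.map fun p => p.1 * (p.2.1.getD i 0 * p.2.2.getD j 0)).sum - entry R i j
  let E : ℕ → ℕ → ℤ := fun i j =>
    (ps.map fun p => |p.1| * (|p.2.1.getD i 0| * |p.2.2.getD j 0|)).sum + |entry R i j|
  have hrowlen : ∀ i, (R.getD i []).length ≤ k := by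
    intro i
    by_cases h : i < R.length
    · rw [List.getD_eq_getElem R [] h, hrow _ (List.getElem_mem h)]
    · rw [List.getD_eq_default R [] (by omega)]; simp
  have hS : ∑ i ∈ range k, ∑ j ∈ range k, E i j = (ps.map sizeTerm).sum + sizeMat R := by
    simp only [E, Finset.sum_add_distrib, ← list_sum_comm]
    congr 1
    · refine congrArg List.sum (List.map_congr_left fun p hp => ?_)
      rw [sizeTerm, sum_map_getD (fun x => |x|) 0 (abs_zero) _ (hps p hp).1,
        sum_map_getD (fun x => |x|) 0 (abs_zero) _ (hps p hp).2, Finset.sum_mul_sum, Finset.mul_sum]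
      exact Finset.sum_congr rfl fun i _ => (Finset.mul_sum _ _ _).symm
    · rw [sizeMat, sum_map_getD (fun r => (List.map (fun x => |x|) r).sum) [] (by simp) R hR.le]
      refine Finset.sum_congr rfl fun i _ => ?_
      rw [sum_map_getD (fun x => |x|) 0 abs_zero _ (hrowlen i)]
      rfl
  have hE : ∀ i j, |D i j| ≤ E i j := by
    intro i j
    refine le_trans (abs_sub _ _) (add_le_add ((list_abs_le _ _).trans_eq ?_) le_rfl)
    simp only [abs_mul]
  have hE0 : ∀ i j, 0 ≤ E i j := fun i j => (abs_nonneg _).trans (hE i j)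
  set S := (ps.map sizeTerm).sum + sizeMat R with hSdef
  have hS0 : 0 ≤ S := hS ▸ Finset.sum_nonneg fun i _ => Finset.sum_nonneg fun j _ => hE0 i j
  have hB1 : 1 ≤ B := by omega
  have hzero : ∑ i ∈ range k, (B ^ k) ^ i * ∑ j ∈ range k, B ^ j * D i j = 0 := by
    have h1 : (ps.map (packTerm B k)).sum = ∑ i ∈ range k, (B ^ k) ^ i * ∑ j ∈ range k,
        B ^ j * (ps.map fun p => p.1 * (p.2.1.getD i 0 * p.2.2.getD j 0)).sum := by
      simp only [Finset.mul_sum, ← List.sum_map_mul_left, ← list_sum_comm]
      refine congrArg List.sum (List.map_congr_left fun p hp => ?_)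
      rw [packTerm, pack_eq _ _ (hps p hp).1, pack_eq _ _ (hps p hp).2, Finset.sum_mul_sum,
        Finset.mul_sum]
      refine Finset.sum_congr rfl fun i _ => ?_
      rw [Finset.mul_sum]
      exact Finset.sum_congr rfl fun j _ => by ring
    have h2 : packMat B k R = ∑ i ∈ range k, (B ^ k) ^ i * ∑ j ∈ range k, B ^ j * entry R i j := by
      rw [packMat, pack_eq _ _ (k := k) (by simp [hR])]
      refine Finset.sum_congr rfl fun i hi => ?_
      have hiR : i < R.length := by have := Finset.mem_range.1 hi; omega
      rw [List.getD_eq_getElem _ _ (by simpa using hiR), List.getElem_map,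
        pack_eq _ _ (hrow _ (List.getElem_mem hiR)).le]
      simp only [entry_eq hiR]
    have h3 := h1.symm.trans (hid.trans h2)
    simp only [D, mul_sub, Finset.sum_sub_distrib]
    rw [sub_eq_zero]
    exact h3
  have hv : ∀ i < k, |∑ j ∈ range k, B ^ j * D i j| < B ^ k := by
    intro i hi
    calc |∑ j ∈ range k, B ^ j * D i j| ≤ ∑ j ∈ range k, |B ^ j * D i j| := Finset.abs_sum_le_sum_abs _ _
      _ ≤ ∑ j ∈ range k, B ^ (k - 1) * E i j := by
          refine Finset.sum_le_sum fun j hj => ?_
          rw [abs_mul, abs_of_nonneg (pow_nonneg (by omega : (0 : ℤ) ≤ B) j)]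
          exact mul_le_mul (pow_le_pow_right₀ hB1 (by have := Finset.mem_range.1 hj; omega)) (hE i j)
            (abs_nonneg _) (pow_nonneg (by omega) _)
      _ = B ^ (k - 1) * ∑ j ∈ range k, E i j := (Finset.mul_sum _ _ _).symm
      _ ≤ B ^ (k - 1) * S := by
          refine mul_le_mul_of_nonneg_left (hS ▸ ?_) (pow_nonneg (by omega) _)
          exact Finset.single_le_sum (f := fun i => ∑ j ∈ range k, E i j)
            (fun i _ => Finset.sum_nonneg fun j _ => hE0 i j) (Finset.mem_range.2 hi)
      _ < B ^ (k - 1) * B := mul_lt_mul_of_pos_left (by omega) (pow_pos (by omega) _)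
      _ = B ^ k := by rw [← pow_succ, show k - 1 + 1 = k by omega]
  have hrow0 := coeff_zero k _ hv hzero i hi
  have hD := coeff_zero k (fun j => D i j) (fun j hj => ?_) hrow0 j hj
  · exact sub_eq_zero.1 hD
  calc |D i j| ≤ E i j := hE i j
    _ ≤ ∑ j ∈ range k, E i j := Finset.single_le_sum (fun j _ => hE0 i j) (Finset.mem_range.2 hj)
    _ ≤ S := hS ▸ Finset.single_le_sum (f := fun i => ∑ j ∈ range k, E i j)
        (fun i _ => Finset.sum_nonneg fun j _ => hE0 i j) (Finset.mem_range.2 hi)
    _ < B := by omega

end Vale.Agent.P359.Gap.Cert
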