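import Vale.Agent.P359.Gap.Cert.Data.One
import Vale.Agent.P359.Gap.Cert.Soundness
import Vale.Agent.P359.Gap.Cert.Degree
import Vale.Agent.P359.Gap.Cert.Expansion
import Vale.Agent.P359.Gap.Coordinates
import Vale.Agent.P359.Gap.Cert.Data.Degree1
import Vale.Agent.P359.Gap.Cert.Data.Degree2
import Vale.Agent.P359.Gap.Cert.Data.Degree3
import Vale.Agent.P359.Gap.Cert.Data.Degree4
import Vale.Agent.P359.Gap.Cert.Data.Degree5
import Vale.Agent.P359.Gap.Cert.Data.Degree6
import Vale.Agent.P359.Gap.Cert.Data.Degree7
import Vale.Agent.P359.Gap.Cert.Data.Degree8
import Vale.Agent.P359.Gap.Cert.Data.Degree9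
import Vale.Agent.P359.Gap.Cert.Data.Degree10
import Vale.Agent.P359.Gap.Cert.Data.Degree11
import Vale.Agent.P359.Gap.Cert.Data.Degree12
import Vale.Agent.P359.Gap.Cert.Data.Degree13
import Vale.Agent.P359.Gap.Cert.Data.Degree14
import Vale.Agent.P359.Gap.Cert.Data.Degree15
import Vale.Agent.P359.Gap.Cert.Data.Degree16
import Vale.Agent.P359.Gap.Cert.Data.Degree17
import Vale.Agent.P359.Gap.Cert.Data.Degree18
import Vale.Agent.P359.Gap.Cert.Data.Degree19
import Vale.Agent.P359.Gap.Cert.Data.Degree20
import Vale.Agent.P359.Gap.Cert.Data.Degree21

/-!
# P359 gap: the planar certificate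
-/

namespace Vale.Agent.P359.Gap.Cert

open Finset Nat

/-- The two particle tables by degree. -/
def tables (L : ℕ) : Tab2 :=
  [table0,table1,table2,table3,table4,table5,table6,table7,table8,table9,table10,table11,table12,table13,table14,table15,table16,table17,table18,table19,table20,table21].getD L []

lemma lin1_flatten (T : Tab1) (ls : List (List (ℤ × X1 × X1))) (M : ℕ) :
    lin1 32 T ls.flatten M = (ls.map fun c => lin1 32 T c M).sum := by
  simp only [lin1, List.map_flatten, List.sum_flatten, List.map_map, Function.comp_def]

lemma val1_flatten (G1 : X1 → X1 → ℝ) (ls : List (List (ℤ × X1 × X1))) :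
    val1 G1 ls.flatten = (ls.map (val1 G1)).sum := by
  simp only [val1, List.map_flatten, List.sum_flatten, List.map_map, Function.comp_def]
  rfl

lemma flatten_rowsOne (st : List X2) (W : List (List ℤ)) (c : List ℤ) :
    (rowsOne st W c).flatten = pairsOne st W c := by
  simp [rowsOne, pairsOne, List.flatMap_def]

lemma flatten_rowsTwo (st : List X2) (W : List (List ℤ)) :
    (rowsTwo st W).flatten = pairsTwo st W := by
  simp [rowsTwo, pairsTwo, List.flatMap_def]

lemma all2_flatten :
    all2.flatten = pairsTwo stM gramM ++ (pairsTwo stZ gramZ ++ pairsTwo stP gramP) := by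
  simp only [all2, List.flatten_append, flatten_rowsTwo]

lemma val1_map_scale (G1 : X1 → X1 → ℝ) (k : ℤ) (ls : List (List (ℤ × X1 × X1))) :
    val1 G1 (ls.map (scale k)).flatten = (k : ℝ) * val1 G1 ls.flatten := by
  rw [val1_flatten, val1_flatten, List.map_map, ← List.sum_map_mul_left]
  exact congrArg List.sum (List.map_congr_left fun c _ => val1_scale k c)

lemma holes_nonneg {G1 : X1 → X1 → ℝ} {G2 : X2 → X2 → ℝ} (h : IsPlanar G1 G2) :
    ∀ l : List (ℕ × List ℤ), 0 ≤ (((l.map fun p => holeConst p.1 p.2).sum : ℤ) : ℝ) +
      val1 G1 (l.map fun p => pairsHole p.1 p.2).flatten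
  | [] => by simp [val1]
  | p :: l => by
    have h1 := hole_nonneg h p.1 p.2
    have h2 := holes_nonneg h l
    simp only [List.map_cons, List.sum_cons, List.flatten_cons, val1_append, Int.cast_add]
    linarith

lemma forms_nonneg {G1 : X1 → X1 → ℝ} {G2 : X2 → X2 → ℝ} (h : IsPlanar G1 G2) :
    0 ≤ (allConst : ℝ) + val1 G1 all1.flatten + (2 : ℝ) ^ 112 * val2 G2 all2.flatten := by
  have hM := block_nonneg h stM facM gramM scaM crossM _ facM_length scaM_length (gram_of_check pack_sound gramM_check) crossM_eq
  have hZ := block_nonneg h stZ facZ gramZ scaZ crossZ _ facZ_length scaZ_length (gram_of_check pack_sound gramZ_check) crossZ_eq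
  have hP := block_nonneg h stP facP gramP scaP crossP _ facP_length scaP_length (gram_of_check pack_sound gramP_check) crossP_eq
  rw [← sqM_eq] at hM
  rw [← sqZ_eq] at hZ
  rw [← sqP_eq] at hP
  have hH := holes_nonneg h holes
  rw [all1, List.flatten_append, val1_append, val1_map_scale, all2_flatten]
  have e : ((Int.ofNat (2 ^ 112) : ℤ) : ℝ) = 2 ^ 112 := by norm_num
  simp only [List.flatten_append, flatten_rowsOne, val1_append, val2_append, allConst,
    Int.cast_add, Int.cast_mul]
  rw [e]
  have h2 : (0 : ℝ) ≤ 2 ^ 112 := by norm_num
  nlinarith [mul_nonneg h2 (add_nonneg (add_nonneg hM hZ) hP)]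

/-- The planar bound. -/
theorem cert : CertTarget := by
  refine planar_of_forms expand1 expand2 (fun _ _ h => coord h) 10 24 7 11 tableOne
    tableOne_check tables table0_check ?_ all1.flatten all2.flatten allConst ?_ ?_
    (fun _ _ h => forms_nonneg h) (of_decide_eq_true allConst_le) ?_ ?_
  · intro L hL
    interval_cases L
    · exact table1_check
    · exact table2_check
    · exact table3_check
    · exact table4_check
    · exact table5_check
    · exact table6_check
    · exact table7_check
    · exact table8_check
    · exact table9_check
    · exact table10_check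
    · exact table11_check
    · exact table12_check
    · exact table13_check
    · exact table14_check
    · exact table15_check
    · exact table16_check
    · exact table17_check
    · exact table18_check
    · exact table19_check
    · exact table20_check
    · exact table21_check
  · intro p hp
    obtain ⟨c, hc, hpc⟩ := List.mem_flatten.1 hp
    have := all1_box
    simp only [inBox1, List.all_eq_true, decide_eq_true_eq] at this
    exact this c hc p hpc
  · intro p hp
    obtain ⟨c, hc, hpc⟩ := List.mem_flatten.1 hp
    have := all2_box
    simp only [inBox2, List.all_eq_true, decide_eq_true_eq] at this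
    exact this c hc p hpc
  · intro M hM h0 h1 h3
    have := one_all M hM h0 h1 h3
    simp only [oneChunks, decide_eq_true_eq] at this
    simp only [oneCheck, lin1_flatten, decide_eq_true_eq]
    exact this
  · intro G1 G2 hc L hL
    interval_cases L
    · exact degree_of_check psd_check pack_sound hc (Nat.succ_pos 0)
        (PartOK.glue (partOK_of_check part1_0) (PartOK.glue (partOK_of_check part1_1) (PartOK.glue (partOK_of_check part1_2) (PartOK.glue (partOK_of_check part1_3) (PartOK.glue (partOK_of_check part1_4) (PartOK.glue (partOK_of_check part1_5) (PartOK.glue (partOK_of_check part1_6) (partOK_of_check part1_7)))))))) rest1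
    · exact degree_of_check psd_check pack_sound hc (Nat.succ_pos 1)
        (PartOK.glue (partOK_of_check part2_0) (PartOK.glue (partOK_of_check part2_1) (PartOK.glue (partOK_of_check part2_2) (PartOK.glue (partOK_of_check part2_3) (PartOK.glue (partOK_of_check part2_4) (PartOK.glue (partOK_of_check part2_5) (PartOK.glue (partOK_of_check part2_6) (partOK_of_check part2_7)))))))) rest2
    · exact degree_of_check psd_check pack_sound hc (Nat.succ_pos 2)
        (PartOK.glue (partOK_of_check part3_0) (PartOK.glue (partOK_of_check part3_1) (PartOK.glue (partOK_of_check part3_2) (PartOK.glue (partOK_of_check part3_3) (PartOK.glue (partOK_of_check part3_4) (PartOK.glue (partOK_of_check part3_5) (PartOK.glue (partOK_of_check part3_6) (partOK_of_check part3_7)))))))) rest3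
    · exact degree_of_check psd_check pack_sound hc (Nat.succ_pos 3)
        (PartOK.glue (partOK_of_check part4_0) (PartOK.glue (partOK_of_check part4_1) (PartOK.glue (partOK_of_check part4_2) (PartOK.glue (partOK_of_check part4_3) (PartOK.glue (partOK_of_check part4_4) (PartOK.glue (partOK_of_check part4_5) (PartOK.glue (partOK_of_check part4_6) (partOK_of_check part4_7)))))))) rest4
    · exact degree_of_check psd_check pack_sound hc (Nat.succ_pos 4)
        (PartOK.glue (partOK_of_check part5_0) (PartOK.glue (partOK_of_check part5_1) (PartOK.glue (partOK_of_check part5_2) (PartOK.glue (partOK_of_check part5_3) (PartOK.glue (partOK_of_check part5_4) (PartOK.glue (partOK_of_check part5_5) (PartOK.glue (partOK_of_check part5_6) (partOK_of_check part5_7)))))))) rest5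
    · exact degree_of_check psd_check pack_sound hc (Nat.succ_pos 5)
        (PartOK.glue (partOK_of_check part6_0) (PartOK.glue (partOK_of_check part6_1) (PartOK.glue (partOK_of_check part6_2) (PartOK.glue (partOK_of_check part6_3) (PartOK.glue (partOK_of_check part6_4) (PartOK.glue (partOK_of_check part6_5) (PartOK.glue (partOK_of_check part6_6) (partOK_of_check part6_7)))))))) rest6
    · exact degree_of_check psd_check pack_sound hc (Nat.succ_pos 6)
        (PartOK.glue (partOK_of_check part7_0) (PartOK.glue (partOK_of_check part7_1) (PartOK.glue (partOK_of_check part7_2) (PartOK.glue (partOK_of_check part7_3) (PartOK.glue (partOK_of_check part7_4) (PartOK.glue (partOK_of_check part7_5) (PartOK.glue (partOK_of_check part7_6) (partOK_of_check part7_7)))))))) rest7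
    · exact degree_of_check psd_check pack_sound hc (Nat.succ_pos 7)
        (PartOK.glue (partOK_of_check part8_0) (PartOK.glue (partOK_of_check part8_1) (PartOK.glue (partOK_of_check part8_2) (PartOK.glue (partOK_of_check part8_3) (PartOK.glue (partOK_of_check part8_4) (PartOK.glue (partOK_of_check part8_5) (PartOK.glue (partOK_of_check part8_6) (partOK_of_check part8_7)))))))) rest8
    · exact degree_of_check psd_check pack_sound hc (Nat.succ_pos 8)
        (PartOK.glue (partOK_of_check part9_0) (PartOK.glue (partOK_of_check part9_1) (PartOK.glue (partOK_of_check part9_2) (PartOK.glue (partOK_of_check part9_3) (PartOK.glue (partOK_of_check part9_4) (PartOK.glue (partOK_of_check part9_5) (PartOK.glue (partOK_of_check part9_6) (partOK_of_check part9_7)))))))) rest9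
    · exact degree_of_check psd_check pack_sound hc (Nat.succ_pos 9)
        (PartOK.glue (partOK_of_check part10_0) (PartOK.glue (partOK_of_check part10_1) (PartOK.glue (partOK_of_check part10_2) (PartOK.glue (partOK_of_check part10_3) (PartOK.glue (partOK_of_check part10_4) (PartOK.glue (partOK_of_check part10_5) (PartOK.glue (partOK_of_check part10_6) (partOK_of_check part10_7)))))))) rest10
    · exact degree_of_check psd_check pack_sound hc (Nat.succ_pos 10)
        (PartOK.glue (partOK_of_check part11_0) (PartOK.glue (partOK_of_check part11_1) (PartOK.glue (partOK_of_check part11_2) (PartOK.glue (partOK_of_check part11_3) (PartOK.glue (partOK_of_check part11_4) (PartOK.glue (partOK_of_check part11_5) (PartOK.glue (partOK_of_check part11_6) (partOK_of_check part11_7)))))))) rest11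
    · exact degree_of_check psd_check pack_sound hc (Nat.succ_pos 11)
        (PartOK.glue (partOK_of_check part12_0) (PartOK.glue (partOK_of_check part12_1) (PartOK.glue (partOK_of_check part12_2) (PartOK.glue (partOK_of_check part12_3) (PartOK.glue (partOK_of_check part12_4) (PartOK.glue (partOK_of_check part12_5) (PartOK.glue (partOK_of_check part12_6) (partOK_of_check part12_7)))))))) rest12
    · exact degree_of_check psd_check pack_sound hc (Nat.succ_pos 12)
        (PartOK.glue (partOK_of_check part13_0) (PartOK.glue (partOK_of_check part13_1) (PartOK.glue (partOK_of_check part13_2) (PartOK.glue (partOK_of_check part13_3) (PartOK.glue (partOK_of_check part13_4) (PartOK.glue (partOK_of_check part13_5) (PartOK.glue (partOK_of_check part13_6) (partOK_of_check part13_7)))))))) rest13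
    · exact degree_of_check psd_check pack_sound hc (Nat.succ_pos 13)
        (PartOK.glue (partOK_of_check part14_0) (PartOK.glue (partOK_of_check part14_1) (PartOK.glue (partOK_of_check part14_2) (PartOK.glue (partOK_of_check part14_3) (PartOK.glue (partOK_of_check part14_4) (PartOK.glue (partOK_of_check part14_5) (PartOK.glue (partOK_of_check part14_6) (partOK_of_check part14_7)))))))) rest14
    · exact degree_of_check psd_check pack_sound hc (Nat.succ_pos 14)
        (PartOK.glue (partOK_of_check part15_0) (PartOK.glue (partOK_of_check part15_1) (PartOK.glue (partOK_of_check part15_2) (PartOK.glue (partOK_of_check part15_3) (PartOK.glue (partOK_of_check part15_4) (PartOK.glue (partOK_of_check part15_5) (PartOK.glue (partOK_of_check part15_6) (partOK_of_check part15_7)))))))) rest15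
    · exact degree_of_check psd_check pack_sound hc (Nat.succ_pos 15)
        (PartOK.glue (partOK_of_check part16_0) (PartOK.glue (partOK_of_check part16_1) (PartOK.glue (partOK_of_check part16_2) (PartOK.glue (partOK_of_check part16_3) (PartOK.glue (partOK_of_check part16_4) (PartOK.glue (partOK_of_check part16_5) (PartOK.glue (partOK_of_check part16_6) (partOK_of_check part16_7)))))))) rest16
    · exact degree_of_check psd_check pack_sound hc (Nat.succ_pos 16)
        (PartOK.glue (partOK_of_check part17_0) (PartOK.glue (partOK_of_check part17_1) (PartOK.glue (partOK_of_check part17_2) (PartOK.glue (partOK_of_check part17_3) (PartOK.glue (partOK_of_check part17_4) (PartOK.glue (partOK_of_check part17_5) (PartOK.glue (partOK_of_check part17_6) (partOK_of_check part17_7)))))))) rest17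
    · exact degree_of_check psd_check pack_sound hc (Nat.succ_pos 17)
        (PartOK.glue (partOK_of_check part18_0) (PartOK.glue (partOK_of_check part18_1) (PartOK.glue (partOK_of_check part18_2) (PartOK.glue (partOK_of_check part18_3) (PartOK.glue (partOK_of_check part18_4) (PartOK.glue (partOK_of_check part18_5) (PartOK.glue (partOK_of_check part18_6) (partOK_of_check part18_7)))))))) rest18
    · exact degree_of_check psd_check pack_sound hc (Nat.succ_pos 18)
        (PartOK.glue (partOK_of_check part19_0) (PartOK.glue (partOK_of_check part19_1) (PartOK.glue (partOK_of_check part19_2) (PartOK.glue (partOK_of_check part19_3) (PartOK.glue (partOK_of_check part19_4) (PartOK.glue (partOK_of_check part19_5) (PartOK.glue (partOK_of_check part19_6) (partOK_of_check part19_7)))))))) rest19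
    · exact degree_of_check psd_check pack_sound hc (Nat.succ_pos 19)
        (PartOK.glue (partOK_of_check part20_0) (PartOK.glue (partOK_of_check part20_1) (PartOK.glue (partOK_of_check part20_2) (PartOK.glue (partOK_of_check part20_3) (PartOK.glue (partOK_of_check part20_4) (PartOK.glue (partOK_of_check part20_5) (PartOK.glue (partOK_of_check part20_6) (partOK_of_check part20_7)))))))) rest20
    · exact degree_of_check psd_check pack_sound hc (Nat.succ_pos 20)
        (PartOK.glue (partOK_of_check part21_0) (PartOK.glue (partOK_of_check part21_1) (PartOK.glue (partOK_of_check part21_2) (PartOK.glue (partOK_of_check part21_3) (PartOK.glue (partOK_of_check part21_4) (PartOK.glue (partOK_of_check part21_5) (PartOK.glue (partOK_of_check part21_6) (partOK_of_check part21_7)))))))) rest21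

end Vale.Agent.P359.Gap.Cert
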